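import Vale.Agent.P144DQ.Defs
import Vale.Agent.P144DM.Cont
import Vale.Agent.P144DR.Blk
import Vale.Agent.P144D.U.Dom

/-!
The majorant after the subtraction of pairs: from the lattice to the continuum.
-/

namespace Vale.Agent.P144DI

open Finset Filter Topology MeasureTheory Vale.Agent.P144 Vale.Agent.P144Z Vale.Agent.P144F
open Vale.Agent.P144DD Vale.Agent.P144DR Vale.Agent.P144DQ Vale.Agent.P144DM
open Vale.Agent.P144DC (en gb)

theorem lcS_eq (E : (Config → ℝ) → ℝ) {n m : ℕ} (x : Fin n → Site) (y : Fin m → Site)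
    (j : Fin m → Fin 2) (A : Finset (Fin m)) :
    lcS E x y j A = lcor E x (y ∘ A.orderEmbOfFin rfl) (j ∘ A.orderEmbOfFin rfl) := by
  unfold lcS lcor
  refine congrArg E (funext fun σ => congrArg _ ?_)
  rw [← prod_coe_sort A]
  exact ((A.orderIsoOfFin rfl).toEquiv.prod_comp
    fun k : A => en (y k) (j k) σ - E (en (y k) (j k))).symm

theorem corr_two {E : (Config → ℝ) → ℝ} (h : IsSt E) (a : ℝ) (y y' : ℂ) (j j' : Fin 2) :
    corr a E (ens ![y, y'] ![j, j']) = a⁻¹ ^ 2 * gE E (fl a y) j (fl a y') j' := by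
  rw [corr_st h]
  change _ ^ 0 * a⁻¹ ^ 2 * lcor (n := 0) (m := 2) E _ (fun k => fl a (![y, y'] k)) ![j, j'] = _
  simp only [lcor, pow_zero, one_mul, univ_eq_empty, prod_empty, Fin.prod_univ_two]
  rfl

theorem wk_eq {E E' : (Config → ℝ) → ℝ} (h : IsSt E) (h' : IsSt E') (a : ℝ) (p : Pts)
    (T : Finset (Fin p.m)) : wk a E E' p T = (a ^ (-(1 / 8) : ℝ)) ^ p.n * a⁻¹ ^ T.card *
      Ex (fun e => gE E' (fl a (p.y e.1)) (p.j e.1) (fl a (p.y e.2)) (p.j e.2))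
        (lcS E (fun i => fl a (p.x i)) (fun k => fl a (p.y k)) p.j) T := by
  rw [← Ex_scale, wk]
  simp only [corr_two h', corr_st h, lcS_eq]
  rfl

theorem latW_of {J : ℝ} (h : LW J) (n m : ℕ) : ∃ C : ℝ, ∀ μ,
    IsPlaneState J 0 (fun _ => 0) (Kc / J) μ → ∀ (Λ : Finset Site) (b : Option Config),
    (b = none ∨ b = some (fun _ => true) ∨ b = some fun _ => false) →
      LatW (gb J b Λ) (fun F => ∫ σ, F σ ∂μ) Λ n m C := by
  obtain ⟨C, h⟩ := h n m
  refine ⟨C, fun μ hμ Λ b hb => ?_⟩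
  rcases hb with rfl | rfl | rfl
  · exact h μ hμ _ Λ (Or.inl rfl)
  · exact h μ hμ _ Λ (Or.inr rfl)
  · intro x y j T r t u h1 h2
    have e : lcS (gb J (some fun _ => false) Λ) x y j =
        fun A => (-1) ^ n * 1 ^ A.card * lcS (gb J (some fun _ => true) Λ) x y j A := by
      funext A
      rw [lcS_eq, lcS_eq, one_pow, mul_one]
      exact U2D.lcor_not (J := J) (lam := 0) (β := Kc / J) U1.pot_zero Λ (fun _ => true) x _ _
    have k := Ex_scale 1 ((-1) ^ n) (fun e => gE (fun F => ∫ σ, F σ ∂μ) (y e.1) (j e.1) (y e.2)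
      (j e.2)) (lcS (gb J (some fun _ => true) Λ) x y j) T
    simp only [one_pow (M := ℝ) 2, one_mul] at k
    rw [e, k, one_pow, mul_one, abs_mul, abs_pow, abs_neg, abs_one, one_pow, one_mul]
    exact h μ hμ _ Λ (Or.inr rfl) x y j T r t u h1 h2

theorem latW_plane {J C : ℝ} (hJ : 0 < J) {n m : ℕ} {μ : Measure Config}
    (h : ∀ Λ : Finset Site, LatW (gb J none Λ) (fun F => ∫ σ, F σ ∂μ) Λ n m C)
    (hμ : IsPlaneState J 0 (fun _ => 0) (Kc / J) μ) :
    LatW (fun F => ∫ σ, F σ ∂μ) (fun F => ∫ σ, F σ ∂μ) Set.univ n m C := by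
  intro x y j T r t u h1 h2
  have := hμ.1
  have k : ∀ A, Tendsto (fun M => lcS (gb J none (P144.box M)) x y j A) atTop
      (𝓝 (lcS (fun F => ∫ σ, F σ ∂μ) x y j A)) := fun A => by
    simp only [lcS_eq]
    refine lcor_lim (fun _ => isSt_gibbs _ _ _ _ _ _) ⟨μ, this, fun _ => rfl⟩ ?_ _ _ _
    rintro F ⟨A, e⟩
    rw [funext e]
    refine Metric.tendsto_atTop.2 fun ε hε => ?_
    obtain ⟨M, hM⟩ := St.unif hJ A (half_pos hε)
    refine ⟨M, fun k hk => ?_⟩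
    have := St.plane_cl hJ hμ A
    unfold H436.spA at this
    rw [Real.dist_eq, this]
    exact (hM _ (H436.box_mono hk) _ none).trans_lt (half_lt_self hε)
  have k' := tendsto_finsetSum (mat T) fun P _ => (k (T \ su P)).const_mul
    (∏ e ∈ P, -gE (fun F => ∫ σ, F σ ∂μ) (y e.1) (j e.1) (y e.2) (j e.2))
  refine le_of_tendsto ((k'.abs.mul_const _).mul_const _) ?_
  filter_upwards [H436.subset_box (univ.biUnion fun i => H436.boxAt (Sum.elim x y i) r)]
    with M hM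
  exact h _ x y j T r t u
    ⟨fun i v hv => hM (mem_biUnion.2 ⟨Sum.inl i, mem_univ _, MD.mem_boxAt_zd.2 hv⟩),
      fun i _ v hv => hM (mem_biUnion.2 ⟨Sum.inr i, mem_univ _, MD.mem_boxAt_zd.2 hv⟩),
      h1.xx, h1.xy⟩ h2

/-- A length in units of the mesh. -/
noncomputable def dz (a τ : ℝ) : ℕ := ⌊τ / (8 * a)⌋₊ - 1

variable {a τ τ' : ℝ}

theorem dz_up (ha : 0 < a) (h : 0 ≤ τ) : 8 * a * (dz a τ + 1) ≤ max (8 * a) τ := by
  have k := (le_div_iff₀ (by positivity)).1 (Nat.floor_le (show 0 ≤ τ / (8 * a) by positivity))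
  unfold dz
  generalize ⌊τ / (8 * a)⌋₊ = w at k ⊢
  rcases w with _ | w
  · simp
  · refine le_max_of_le_right ?_
    simp only [Nat.add_sub_cancel]
    push_cast at k
    linarith

theorem dz_lo (ha : 0 < a) : τ ≤ 16 * (a * (dz a τ + 1)) := by
  have k := (div_lt_iff₀ (by positivity)).1 (Nat.lt_floor_add_one (τ / (8 * a)))
  unfold dz
  generalize ⌊τ / (8 * a)⌋₊ = w at k ⊢
  have : (w : ℝ) + 1 ≤ 2 * (((w - 1 : ℕ) : ℝ) + 1) := by
    exact_mod_cast (by omega : w + 1 ≤ 2 * (w - 1 + 1))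
  nlinarith

theorem dz_mono (ha : 0 < a) (h : τ ≤ τ') : dz a τ ≤ dz a τ' :=
  Nat.sub_le_sub_right (Nat.floor_mono (div_le_div_of_nonneg_right h (by positivity))) 1

theorem dz_le (ha : 0 < a) (h0 : 0 ≤ τ) {z w : ℂ} (h : τ ≤ ‖z - w‖) :
    dz a τ ≤ zd (fl a z) (fl a w) := by
  have k1 := h.trans (norm_fl ha _ _)
  have k2 : (0 : ℝ) ≤ zd (fl a z) (fl a w) := by positivity
  have k4 := (dz_up ha h0).trans (max_le (c := 8 * a * (zd (fl a z) (fl a w) + 1))
    (by nlinarith) (by nlinarith))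
  exact_mod_cast le_of_add_le_add_right (le_of_mul_le_mul_left k4 (by positivity))

theorem dz_mem {s : ℝ} {D : Set ℂ} (ha : 0 < a) (h0 : 0 ≤ τ) (h : τ ≤ s) (has : a < s / 8) {z : ℂ}
    (hz : Metric.ball z s ⊆ D) {v : Site} (hv : zd v (fl a z) ≤ dz a τ) : v ∈ sites D a := by
  refine hz ?_
  have k1 := norm_fl ha ⟨a * v.1, a * v.2⟩ z
  rw [fl_pt ha] at k1
  have k2 : (zd v (fl a z) : ℝ) ≤ dz a τ := by exact_mod_cast hv
  have k4 := (dz_up ha h0).trans (max_le (by linarith) h)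
  rw [mem_ball_iff_norm]
  nlinarith

theorem majW_of {D : Set ℂ} {E E' : Fam} (hE : ∀ a > 0, IsSt (E a)) (hE' : ∀ a > 0, IsSt (E' a))
    (h : ∀ n m, ∃ C, ∀ a > 0, LatW (E a) (E' a) (sites D a) n m C) : MajW D E E' := by
  intro n m s hs
  obtain ⟨C, h⟩ := h n m
  obtain ⟨c, c0, c1, cs⟩ : ∃ c : ℝ, 0 < c ∧ c ≤ 1 ∧ c ≤ s :=
    ⟨min 1 s, lt_min one_pos hs, min_le_left _ _, min_le_right _ _⟩
  refine ⟨(16 / c) ^ (n + m) * C, n + m, ?_⟩
  filter_upwards [Ioo_mem_nhdsGT (show 0 < s / 8 by positivity)] with a ⟨ha, has⟩ p e1 e2 h1 T ρ t u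
    r0 r1 hx hxy ht h2 h3
  subst e1 e2
  obtain ⟨l, hl⟩ : ∃ l, l = c * ρ := ⟨_, rfl⟩
  have l0 : 0 < l := by rw [hl]; positivity
  have l1 : l ≤ ρ := hl ▸ mul_le_of_le_one_left r0.le c1
  have l2 : l ≤ s := hl ▸ (mul_le_of_le_one_right c0.le r1).trans cs
  have t0 : ∀ k, 0 < t k := fun k => (ht k).1
  have u0 : ∀ k, 0 < u k := fun k => (t0 k).trans_le (ht k).2.1
  have k := h a ha (fun i => fl a (p.x i)) (fun k => fl a (p.y k)) p.j T (dz a l)
    (fun k => dz a (l * t k)) (fun k => dz a (l * u k))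
    ⟨fun i v hv => dz_mem ha l0.le l2 has (h1 (Sum.inl i)).2 hv,
      fun k _ v hv => dz_mem ha l0.le l2 has (h1 (Sum.inr k)).2 hv,
      fun i i' e => dz_le ha l0.le (l1.trans (hx i i' e)),
      fun i k hk => dz_le ha l0.le (l1.trans (hxy i k hk))⟩
    ⟨fun k _ => ⟨dz_mono ha (mul_le_mul_of_nonneg_left (ht k).2.1 l0.le),
        dz_mono ha (mul_le_of_le_one_right l0.le (ht k).2.2)⟩,
      fun k hk k' hk' e => dz_le ha (mul_pos l0 (t0 k)).le
        ((mul_le_of_le_one_left (t0 k).le (l1.trans r1)).trans (h2 k hk k' hk' e)),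
      fun k hk k' hk' k'' hk'' e e' e'' => by
        rcases le_max_iff.1 ((mul_le_of_le_one_left (u0 k).le (l1.trans r1)).trans
          (h3 k hk k' hk' k'' hk'' e e' e'')) with h4 | h4
        exacts [le_max_of_le_left (dz_le ha (mul_pos l0 (u0 k)).le h4),
          le_max_of_le_right (dz_le ha (mul_pos l0 (u0 k)).le h4)]⟩
  refine le_trans ?_ (mul_le_mul_of_nonneg_left k (by positivity))
  have q1 : 1 ≤ 16 / l := (one_le_div l0).2 (by linarith)
  have lo : ∀ z : ℝ, z ≤ 16 / l * (a * (dz a (l * z) + 1)) := fun z => by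
    rw [div_mul_eq_mul_div, le_div_iff₀ l0, mul_comm]
    exact dz_lo ha
  have b1 : (a ^ (-(1 / 8) : ℝ)) ^ p.n ≤ (16 / l) ^ p.n * ((dz a l : ℝ) + 1) ^ ((p.n : ℝ) / 8) := by
    rw [div_eq_inv_mul (p.n : ℝ), Real.rpow_mul_natCast (by positivity), ← mul_pow]
    refine pow_le_pow_left₀ (by positivity) ?_ _
    have k1 := lo 1
    rw [mul_one] at k1
    have k2 := rt_le zero_le_one k1
    rw [rt_mul (by positivity) (by positivity), rt_mul ha.le (by positivity)] at k2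
    have k3 : rt (16 / l) ≤ 16 / l := Real.rpow_le_self_of_one_le q1 (by norm_num)
    have k4 := rt_pos ha
    have k5 := rt_pos (show (0 : ℝ) < dz a l + 1 by positivity)
    rw [rt_inv ha, inv_eq_one_div (rt a), div_le_iff₀ k4, inv_eq_one_div, mul_assoc,
      mul_comm _ (rt a)]
    rw [show rt 1 = 1 from Real.one_rpow _] at k2
    exact k2.trans (mul_le_mul_of_nonneg_right k3 (by positivity))
  have b2 : ∏ k ∈ T, √(t k * u k) ≤
      ∏ k ∈ T, 16 / l * (a * √(((dz a (l * t k) : ℝ) + 1) * (dz a (l * u k) + 1))) :=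
    prod_le_prod (fun _ _ => Real.sqrt_nonneg _) fun k _ => by
      refine Real.sqrt_le_iff.2 ⟨by positivity, ?_⟩
      rw [mul_pow, mul_pow, Real.sq_sqrt (by positivity)]
      exact (mul_le_mul (lo (t k)) (lo (u k)) (u0 k).le (by positivity)).trans_eq (by ring)
  have b3 : (16 / l) ^ T.card ≤ (16 / l) ^ p.m :=
    pow_le_pow_right₀ q1 (by simpa using card_le_univ T)
  rw [wk_eq (hE a ha) (hE' a ha), abs_mul, abs_of_nonneg (by positivity)]
  rw [prod_mul_distrib, prod_mul_distrib, prod_const, prod_const] at b2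
  have Y0 : 0 ≤ ∏ k ∈ T, √(((dz a (l * t k) : ℝ) + 1) * (dz a (l * u k) + 1)) :=
    prod_nonneg fun _ _ => Real.sqrt_nonneg _
  have W0 : 0 ≤ ∏ k ∈ T, √(t k * u k) := prod_nonneg fun _ _ => Real.sqrt_nonneg _
  generalize ∏ k ∈ T, √(((dz a (l * t k) : ℝ) + 1) * (dz a (l * u k) + 1)) = Y at b2 Y0 ⊢
  generalize Ex _ _ T = X
  calc _ ≤ (16 / l) ^ p.n * ((dz a l : ℝ) + 1) ^ ((p.n : ℝ) / 8) * a⁻¹ ^ T.card * |X| *
        ρ ^ (p.n + p.m) * ((16 / l) ^ p.m * (a ^ T.card * Y)) := by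
        refine mul_le_mul (by gcongr) (b2.trans (by gcongr)) W0 (by positivity)
    _ = _ := by
        rw [hl, inv_pow]
        simp only [pow_add, div_pow, mul_pow]
        field_simp

theorem blkW_of (h : ∀ J > (0 : ℝ), LW J) : BlkW := by
  refine ⟨1, one_pos, fun ε _ _ => ⟨0, fun L _ J hJ μ hμ => ?_⟩⟩
  have st : ∀ a > (0 : ℝ), IsSt (famOf μ a) := fun _ _ => ⟨μ, hμ.1, fun _ => rfl⟩
  refine ⟨majW_of st st fun n m => ?_, fun D b hD hb =>
    majW_of (fun a _ => isSt_gibbs _ _ _ _ _ _) st fun n m => ?_⟩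
  · obtain ⟨C, k⟩ := latW_of (h J hJ) n m
    exact ⟨C, fun a _ => latW_plane hJ (fun Λ => k μ hμ Λ _ (Or.inl rfl)) hμ⟩
  · obtain ⟨C, k⟩ := latW_of (h J hJ) n m
    obtain ⟨_, _, _, -, _, -, _, -, hD⟩ := hD
    refine ⟨C, fun a ha => ?_⟩
    have e : sites D a = disc D a := Set.ext fun v => ((hD a ha).1 v).symm
    rw [e]
    refine k μ hμ _ _ ?_
    rcases hb with rfl | rfl | rfl
    exacts [Or.inl rfl, Or.inr (Or.inl rfl), Or.inr (Or.inr rfl)]

end Vale.Agent.P144DI
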