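import Vale.Agent.P144DI.SecV

/-!
# Pairs of energies: the mixtures
-/

namespace Vale.Agent.P144Z

open Finset Matrix P144 UL MixA

theorem MixA.prod_le {a b a₀ b₀ c ε : ℝ} (h1 : |a - a₀| ≤ ε) (h2 : |b - b₀| ≤ ε) (h3 : |a₀| ≤ c)
    (h4 : |b₀| ≤ c) : |a * b - a₀ * b₀| ≤ ε * (2 * c + ε) := by
  have e : a * b - a₀ * b₀ = (a - a₀) * (b - b₀) + (a - a₀) * b₀ + a₀ * (b - b₀) := by ring
  have h0 := (abs_nonneg _).trans h1
  rw [e]
  refine (abs_add_three _ _ _).trans ?_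
  rw [abs_mul, abs_mul, abs_mul]
  linarith [mul_le_mul h1 h2 (abs_nonneg _) h0, mul_le_mul h1 h4 (abs_nonneg _) h0,
    mul_le_mul h3 h2 (abs_nonneg _) ((abs_nonneg _).trans h3)]

theorem coreV_of {Q : Cls} {q : Par} {L : ℕ} {σ γ : ℝ} (h : SecV Q q L σ γ) : CoreV Q q L σ γ := by
  intro J₁ Λ k Γ hΓ
  obtain ⟨C, κ, p, hκ, h⟩ := h J₁ Λ k Γ hΓ
  obtain ⟨c, c1, hc⟩ : ∃ c : ℝ, 1 ≤ c ∧ C ≤ c := ⟨max 1 C, le_max_left _ _, le_max_right _ _⟩
  obtain ⟨K, hK⟩ : ∃ K, K = Γ * (c + 2 ^ 2 * (Γ * c * (Γ * c) ^ 2)) := ⟨_, rfl⟩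
  obtain ⟨K', hK'⟩ : ∃ K', K' = Γ * (c + c * (3 * c) + 2 ^ 4 * (c * (Γ * c * (Γ * c) ^ 4))) :=
    ⟨_, rfl⟩
  have K0 : 0 ≤ K := by rw [hK]; positivity
  have K0' : 0 ≤ K' := by rw [hK']; positivity
  refine ⟨K' + K * (2 * c + K), κ, p + 1, hκ, fun s d hs hd => ?_⟩
  rw [add_mul, one_mul] at hd
  replace h := h s d hs (by omega)
  obtain ⟨x, hx⟩ : ∃ x, x = ((s : ℝ) / d) ^ κ := ⟨_, rfl⟩
  rw [← hx] at h ⊢
  have x0 : 0 ≤ x := hx ▸ by positivity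
  have x1 : x ≤ 1 := hx ▸ Real.rpow_le_one (by positivity)
    (div_le_one_of_le₀ (by exact_mod_cast (by omega : s ≤ d)) (by positivity)) hκ.le
  have s0 : (0 : ℝ) ≤ s := Nat.cast_nonneg _
  have cx : C * x ≤ c * x := mul_le_mul_of_nonneg_right hc x0
  have H1 : 1 ≤ Γ * c := one_le_mul_of_one_le_of_one_le hΓ c1
  have H2 : Γ * (c * x) ≤ Γ * c := by gcongr; exact mul_le_of_le_one_right (by linarith) x1
  have ab : ∀ (a b : ℝ) (n : ℕ), |a * s ^ n - b * s ^ n| = |a - b| * s ^ n := fun a b n => by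
    rw [← sub_mul, abs_mul, abs_of_nonneg (pow_nonneg s0 n)]
  have two : ∀ (mo : Mom) (S : Site → Prop) (r : ℕ), d ≤ r → MixM Q q L J₁ Λ Γ σ γ mo S r →
      ∀ (y : Fin 2 → Site) (j : Fin 2 → Fin 2), (∀ i, S (y i)) → zd (y 0) (y 1) ≤ s →
      s ≤ k * (zd (y 0) (y 1) + 1) → ∀ (M' N' : ℕ) [NeZero M'] (A' : Gauge M') (u' : Cor M'),
      Sect Q q L N' J₁ Λ Γ σ γ A' u' → d ≤ Λ * sc L N' → (∀ i, FlatAt A' (sc L N') (y i)) →
      |cen mo y j * (s : ℝ) ^ 2 - cS q u' A' y j univ * (s : ℝ) ^ 2| ≤ K * x := by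
    rintro mo S r hr ⟨M, N, _, ι, I, A, u, w, a1, a2, a3, a4, a5, a6⟩ y j hy b1 b2 M' N' _ A' u'
      b3 b4 b5
    have fl : ∀ i ∈ I, ∀ l, FlatAt (A i) (sc L N) (y l) := fun i hi l =>
      ⟨(a5 _ (hy l)).1, (a5 _ (hy l)).2 i hi⟩
    have k1 := fun i hi => (h M N (A i) (u i) (a2 i hi) (hr.trans a1)).2 M' N' A' u' b3 b4 y j
      (fun l => ⟨fl i hi l, b5 l⟩) b1 b2
    refine (mix_near a3 a4 (fun e t => a6 2 y j e t hy) (fun i hi => (k1 i hi).1) s0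
      (δ := c * x) (δ' := c * x) (by positivity) (by positivity) zero_le_one H1 H2
      (fun i hi i' hi' l => (((h M N (A i) (u i) (a2 i hi) (hr.trans a1)).2 M N (A i') (u i')
        (a2 i' hi') (hr.trans a1) y j (fun l => ⟨fl i hi l, fl i' hi' l⟩) b1 b2).2.1 l).trans cx)
      (fun i hi t ht => cS_two (k1 i hi).1 y j s ht) fun i hi => ?_).trans_eq (by rw [hK]; ring)
    rw [ab]
    exact (k1 i hi).2.2.trans cx
  intro mo S r hr hM
  obtain ⟨M, N, _, ι, I, A, u, w, a1, a2, a3, a4, a5, a6⟩ := id hM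
  obtain ⟨i₀, h₀⟩ : I.Nonempty := nonempty_of_sum_ne_zero (by rw [a4]; exact one_ne_zero)
  have fl : ∀ x, S x → ∀ i ∈ I, FlatAt (A i) (sc L N) x := fun x hx i hi =>
    ⟨(a5 _ hx).1, (a5 _ hx).2 i hi⟩
  refine ⟨fun y j hy b1 b2 b3 b4 b5 => ?_, fun mo' S' r' hr' hM' y j hy b1 b2 => ?_⟩
  · have y1 : ∀ l, S (![y 0, y 1] l) := Fin.forall_fin_two.2 ⟨hy 0, hy 1⟩
    have y2 : ∀ l, S (![y 2, y 3] l) := Fin.forall_fin_two.2 ⟨hy 2, hy 3⟩
    have k1 := fun i hi => (h M N (A i) (u i) (a2 i hi) (hr.trans a1)).1 y j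
      (fun l => fl _ (hy l) i hi) b1 b2 b3 b4 b5
    have k2 := fun i hi i' hi' => (h M N (A i) (u i) (a2 i hi) (hr.trans a1)).2 M N (A i') (u i')
      (a2 i' hi') (hr.trans a1) ![y 0, y 1] ![j 0, j 1]
      (fun l => ⟨fl _ (y1 l) i hi, fl _ (y1 l) i' hi'⟩) b1 b3
    have k3 := fun i hi i' hi' => (h M N (A i) (u i) (a2 i hi) (hr.trans a1)).2 M N (A i') (u i')
      (a2 i' hi') (hr.trans a1) ![y 2, y 3] ![j 2, j 3]
      (fun l => ⟨fl _ (y2 l) i hi, fl _ (y2 l) i' hi'⟩) b2 b4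
    have t1 := two mo S r hr hM _ ![j 0, j 1] y1 b1 b3 M N _ _ (a2 i₀ h₀) (hr.trans a1)
      fun l => fl _ (y1 l) i₀ h₀
    have t2 := two mo S r hr hM _ ![j 2, j 3] y2 b2 b4 M N _ _ (a2 i₀ h₀) (hr.trans a1)
      fun l => fl _ (y2 l) i₀ h₀
    have bd : ∀ t : Finset (Fin 4), t.card = 2 →
        |cS q (u i₀) (A i₀) y j t * (s : ℝ) ^ 2| ≤ c := fun t ht => by
      rw [abs_mul, abs_of_nonneg (pow_nonneg s0 2), ← ht]
      exact ((k1 i₀ h₀).1 t).trans hc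
    have t3 := mix_near a3 a4 (fun e t => a6 4 y j e t hy) (fun i hi => (k2 i hi i hi).1) s0
      (δ := c * x) (δ' := c * x + c * x * (2 * c + c * x)) (B := c)
      (z := cS q (u i₀) (A i₀) y j {0, 1} * (s : ℝ) ^ 2 * (cS q (u i₀) (A i₀) y j {2, 3} * s ^ 2))
      (by positivity) (by positivity) (by linarith) H1 H2
      (fun i hi i' hi' l => by
        refine le_trans ?_ cx
        fin_cases l
        exacts [(k2 i hi i' hi').2.1 0, (k2 i hi i' hi').2.1 1, (k3 i hi i' hi').2.1 0,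
          (k3 i hi i' hi').2.1 1])
      (fun i hi t _ => ((k1 i hi).1 t).trans hc) fun i hi => by
        have m1 := (k1 i hi).2.trans cx
        have m2 := (k2 i hi i₀ h₀).2.2.trans cx
        have m3 := (k3 i hi i₀ h₀).2.2.trans cx
        rw [← ab] at m1 m2 m3
        rw [← cS_01, ← cS_01] at m2
        rw [← cS_23, ← cS_23] at m3
        have m4 := (abs_add_le _ _).trans
          (add_le_add m1 (MixA.prod_le m2 m3 (bd _ rfl) (bd _ rfl)))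
        exact le_trans (le_of_eq (congrArg _ (by ring))) m4
    rw [← cS_01] at t1
    rw [← cS_23] at t2
    have t4 := MixA.prod_le t1 t2 (bd _ rfl) (bd _ rfl)
    rw [abs_sub_comm] at t4
    have t5 := (abs_add_le _ _).trans (add_le_add t3 t4)
    rw [← ab]
    refine le_trans (le_of_eq (congrArg _ (by ring))) (t5.trans ?_)
    have m1 : c * x * (2 * c + c * x) ≤ c * x * (3 * c) := by
      have := mul_le_of_le_one_right (by linarith : 0 ≤ c) x1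
      gcongr
      linarith
    have m2 : K * x * (2 * c + K * x) ≤ K * x * (2 * c + K) := by
      gcongr
      exact mul_le_of_le_one_right K0 x1
    have m3 := mul_le_mul_of_nonneg_left m1 (by linarith : 0 ≤ Γ)
    rw [hK']
    linarith
  · have t1 := two mo S r hr hM y j (fun l => (hy l).1) b1 b2 M N _ _ (a2 i₀ h₀) (hr.trans a1)
      fun l => fl _ (hy l).1 i₀ h₀
    have t2 := two mo' S' r' hr' hM' y j (fun l => (hy l).2) b1 b2 M N _ _ (a2 i₀ h₀) (hr.trans a1)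
      fun l => fl _ (hy l).1 i₀ h₀
    rw [abs_sub_comm] at t2
    have t5 := (abs_add_le _ _).trans (add_le_add t1 t2)
    rw [← ab]
    refine le_trans (le_of_eq (congrArg _ (by ring))) (t5.trans ?_)
    have m1 : K * 2 ≤ K * (2 * c + K) := by gcongr; linarith
    have m2 := mul_le_mul_of_nonneg_right m1 x0
    have m3 := mul_nonneg K0' x0
    linarith

end Vale.Agent.P144Z
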