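import Vale.Agent.P144DI.Wk

/-!
P144 (helper5): block I2, the limit of the renormalised correlations.
-/

namespace Vale.Agent.P144DI

open Filter Topology MeasureTheory Finset Vale.Agent.P144 Vale.Agent.P144F Vale.Agent.P144DD
  Vale.Agent.P144DR Vale.Agent.P144Z

variable {n m : ℕ} {a : ℝ} {μ : Measure Config} {D K : Set ℂ} {E : Fam}
  {F : (Fin n ⊕ Fin m → ℂ) → ℝ} {P : Finset (Fin m × Fin m)}

/-- Measurable and bounded. -/
def BM (f : (Fin n ⊕ Fin m → ℂ) → ℝ) : Prop := Measurable f ∧ ∃ B, ∀ w, |f w| ≤ B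

theorem BM.const (c : ℝ) : BM fun _ : Fin n ⊕ Fin m → ℂ => c :=
  ⟨measurable_const, _, fun _ => le_rfl⟩

theorem BM.mul {f g : (Fin n ⊕ Fin m → ℂ) → ℝ} (h : BM f) (h' : BM g) : BM fun w => f w * g w := by
  obtain ⟨h1, B, h⟩ := h
  obtain ⟨h2, B', h'⟩ := h'
  exact ⟨h1.mul h2, B * B', fun w => (abs_mul _ _).trans_le
    (mul_le_mul (h w) (h' w) (abs_nonneg _) ((abs_nonneg _).trans (h w)))⟩

theorem BM.add {f g : (Fin n ⊕ Fin m → ℂ) → ℝ} (h : BM f) (h' : BM g) : BM fun w => f w + g w := by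
  obtain ⟨h1, B, h⟩ := h
  obtain ⟨h2, B', h'⟩ := h'
  exact ⟨h1.add h2, B + B', fun w => (abs_add_le _ _).trans (add_le_add (h w) (h' w))⟩

theorem BM.neg {f : (Fin n ⊕ Fin m → ℂ) → ℝ} (h : BM f) : BM fun w => -f w :=
  ⟨h.1.neg, h.2.imp fun _ h w => (abs_neg _).trans_le (h w)⟩

theorem BM.sum {κ : Type} (s : Finset κ) {f : κ → (Fin n ⊕ Fin m → ℂ) → ℝ} (h : ∀ k, BM (f k)) :
    BM fun w => ∑ k ∈ s, f k w := by
  classical
  induction s using Finset.induction_on with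
  | empty => simpa using BM.const 0
  | insert k s hk ih => simpa only [sum_insert hk] using (h k).add ih

theorem BM.prod {κ : Type} (s : Finset κ) {f : κ → (Fin n ⊕ Fin m → ℂ) → ℝ} (h : ∀ k, BM (f k)) :
    BM fun w => ∏ k ∈ s, f k w := by
  classical
  induction s using Finset.induction_on with
  | empty => simpa using BM.const 1
  | insert k s hk ih => simpa only [prod_insert hk] using (h k).mul ih

theorem BM.int {f : (Fin n ⊕ Fin m → ℂ) → ℝ} (h : BM f) (hF : Integrable F) :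
    Integrable fun w => F w * f w := by
  obtain ⟨h1, B, h⟩ := h
  exact hF.mul_bdd h1.aestronglyMeasurable (Eventually.of_forall h)

theorem bm_pr (h : P144DR.Inv μ) (ha : 0 < a) (j : Fin m → Fin 2) (e : Fin m × Fin m) :
    BM fun w : Fin n ⊕ Fin m → ℂ => corr a (famOf μ a) (pr j w e) :=
  ⟨meas_pr _ _ j e, 4 / a ^ 2, fun w => (le_div_iff₀ (by positivity)).2 (pr_le h ha j w e)⟩

theorem bm_sub (h : Prob E) (ha : 0 < a) (j : Fin m → Fin 2) (T : Finset (Fin m)) :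
    BM fun w : Fin n ⊕ Fin m → ℂ => corr a (E a) (sub (pw j w) T) := by
  obtain ⟨ν, _, hν⟩ := h
  refine ⟨meas_sub _ _ j T, ∏ i, 2 / a ^ dm n T.card i, fun w => ?_⟩
  beta_reduce
  rw [sub_pw, corr_kc (hν a ha)]
  exact abs_kc (ker_kern (n := n) (ν a) (j ∘ T.orderEmbOfFin rfl) ha) (ν a) _

theorem bm_wk (h : P144DR.Inv μ) (h' : Prob E) (ha : 0 < a) (j : Fin m → Fin 2)
    (T : Finset (Fin m)) : BM fun w : Fin n ⊕ Fin m → ℂ => wk a (E a) (famOf μ a) (pw j w) T := by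
  simp only [wk_eq, Ex_eq]
  exact BM.sum _ fun _ => (BM.prod _ fun e => (bm_pr h ha j e).neg).mul (bm_sub h' ha j _)

theorem bm_dl (ha : 0 < a) (e : Fin m × Fin m) :
    BM fun w : Fin n ⊕ Fin m → ℂ => dl a (w (.inr e.1)) (w (.inr e.2)) := by
  refine ⟨meas_cell a fun c => if c (.inr e.1) = c (.inr e.2) then (a ^ 2)⁻¹ else 0, (a ^ 2)⁻¹,
    fun w => ?_⟩
  unfold dl
  beta_reduce
  split_ifs
  · exact (abs_of_nonneg (by positivity)).le
  · rw [abs_zero]
    positivity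

theorem mq_ST {Q : Finset (Fin m × Fin m)} (h : Q ⊆ P) (s : Fin m × Fin m → ℂ)
    (w : Fin n ⊕ Fin m → ℂ) : ∀ i ∈ ST n (univ \ su P), mq Q s w i = w i := by
  refine fun i hi => mq_off (fun e he h' => ?_) s w
  rw [h', inr_mem_disjSum, Finset.mem_sdiff] at hi
  exact hi.2 (mem_su.2 ⟨e, h he, Or.inr rfl⟩)

/-- The integrand for the pairs in `P`, and its limit. -/
noncomputable def Ya (μ : Measure Config) (E : Fam) (j : Fin m → Fin 2)
    (F : (Fin n ⊕ Fin m → ℂ) → ℝ) (P : Finset (Fin m × Fin m)) (a : ℝ) (w : Fin n ⊕ Fin m → ℂ) : ℝ :=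
  RF F P (sh a w) w * ((∏ e ∈ P, corr a (famOf μ a) (pr j w e)) *
    wk a (E a) (famOf μ a) (pw j w) (univ \ su P : Finset (Fin m)))
noncomputable def Y0 (C₀ C : Pts → ℝ) (F : (Fin n ⊕ Fin m → ℂ) → ℝ) (P : Finset (Fin m × Fin m))
    (w : Fin n ⊕ Fin m → ℂ) : ℝ :=
  RF F P (df w) w * ((∏ e ∈ P, C₀ (pr 0 w e)) *
    Ex (fun e => C₀ (pr 0 w e)) (fun T => C (sub (pw 0 w) T)) (univ \ su P))

theorem ren_eq (h : P144DR.Inv μ) (h' : Prob E) (ha : 0 < a) (j : Fin m → Fin 2)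
    (hF : Integrable F) :
    ∫ w, F w * ren a (E a) (k0 μ a) (pw j w) = ∑ P ∈ mat univ, ∫ w, Ya μ E j F P a w := by
  set G := fun (w : Fin n ⊕ Fin m → ℂ) e => corr a (famOf μ a) (pr j w e) with hG
  set W := fun (w : Fin n ⊕ Fin m → ℂ) (T : Finset (Fin m)) => wk a (E a) (famOf μ a) (pw j w) T
    with hW
  set d := fun (w : Fin n ⊕ Fin m → ℂ) (e : Fin m × Fin m) =>
    (∑ v ∈ bx ⌊a⁻¹⌋₊, g2 μ (j e.1) (j e.2) v) * dl a (w (.inr e.1)) (w (.inr e.2)) with hd
  set H := fun (P Q : Finset (Fin m × Fin m)) (w : Fin n ⊕ Fin m → ℂ) =>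
    F w * ((-1) ^ Q.card * ((∏ e ∈ P \ Q, G w e) * W w (univ \ su P))) with hH
  have iH : ∀ P Q, Integrable (H P Q) := fun P Q => ((BM.const _).mul
    ((BM.prod _ fun e => bm_pr h ha j e).mul (bm_wk h h' ha j _))).int hF
  have e1 : ∀ w, F w * ren a (E a) (k0 μ a) (pw j w) =
      ∑ P ∈ mat univ, ∑ Q ∈ P.powerset, H P Q w * ∏ e ∈ Q, d w e := by
    intro w
    have k : ren a (E a) (k0 μ a) (pw j w) = Ex (d w - G w) (W w) univ := by
      refine Eq.trans ?_ (Ex_add (d w - G w) (G w) (fun T => corr a (E a) (sub (pw j w) T)) univ)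
      rw [sub_add_cancel]
      rfl
    rw [k, Ex_eq, mul_sum]
    refine sum_congr rfl fun P _ => ?_
    simp only [Pi.sub_apply, neg_sub', sub_neg_eq_add, prod_add, prod_neg, sum_mul, mul_sum, hH]
    exact sum_congr rfl fun Q _ => by ring
  have i1 : ∀ P Q, Integrable fun w => H P Q w * ∏ e ∈ Q, d w e := fun P Q =>
    (BM.prod _ fun e => (BM.const _).mul (bm_dl ha e)).int (iH P Q)
  simp only [e1]
  rw [integral_finsetSum _ fun P _ => integrable_finsetSum _ fun Q _ => i1 P Q]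
  refine sum_congr rfl fun P hP => ?_
  obtain ⟨q1, q2⟩ := mem_mat.1 hP
  have k := fun Q (hQ : Q ∈ P.powerset) => iter ha (fun e => g2 μ (j e.1) (j e.2)) Q
    (mem_mat.2 ⟨fun e he => q1 e (mem_powerset.1 hQ he), fun e he e' he' =>
      q2 e (mem_powerset.1 hQ he) e' (mem_powerset.1 hQ he')⟩) (iH P Q)
  rw [integral_finsetSum _ fun Q _ => i1 P Q, sum_congr rfl fun Q hQ => (k Q hQ).2,
    ← integral_finsetSum _ fun Q hQ => (k Q hQ).1]
  refine integral_congr_ae (Eventually.of_forall fun w => ?_)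
  simp only [Ya, RF, sum_mul]
  refine sum_congr rfl fun Q hQ => ?_
  have hQ := mem_powerset.1 hQ
  have e2 : ∏ e ∈ P \ Q, G (mq Q (sh a w) w) e = ∏ e ∈ P \ Q, G w e := by
    refine prod_congr rfl fun e he => ?_
    obtain ⟨he, he'⟩ := Finset.mem_sdiff.1 he
    have ne : ∀ e' ∈ Q, (e.1 ≠ e'.1 ∧ e.1 ≠ e'.2) ∧ e.2 ≠ e'.1 ∧ e.2 ≠ e'.2 := fun e' h => by
      simpa using q2 e' (hQ h) e he fun h' => he' (h' ▸ h)
    simp only [hG, pr]
    rw [mq_off fun e' h h' => (ne e' h).1.2 (Sum.inr_injective h'),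
      mq_off fun e' h h' => (ne e' h).2.2 (Sum.inr_injective h')]
  have e3 : W (mq Q (sh a w) w) (univ \ su P) = W w (univ \ su P) :=
    wk_congr _ _ j (mq_ST hQ _ w)
  simp only [hH, e2, e3, ← pr_eq h ha, prod_mul_distrib, prod_neg]
  rw [← prod_sdiff hQ]
  ring

theorem pair_le {G B d v β : ℝ} (d0 : 0 < d) (h1 : |G| * (d * d) ≤ B)
    (h2 : |G| * a ^ 2 ≤ 4) (v0 : 0 ≤ v) (h3 : v ≤ d + 2 * a) (b0 : 0 ≤ β) (b1 : β ≤ 1) :
    v ^ β * |G| ≤ 3 * (B + 4) * d ^ (-(2 - β)) := by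
  have B0 : 0 ≤ B := le_trans (by positivity) h1
  have r0 : 0 < max d a := lt_max_of_lt_left d0
  have k1 : |G| ≤ (B + 4) * max d a ^ (-2 : ℝ) := by
    rw [Real.rpow_neg r0.le, ← div_eq_mul_inv, le_div_iff₀ (by positivity), Real.rpow_two]
    rcases max_choice d a with e | e <;> rw [e] <;> linarith
  have k2 : v ^ β ≤ 3 * max d a ^ β := by
    refine (Real.rpow_le_rpow v0 (show v ≤ 3 * max d a by
      linarith [le_max_left d a, le_max_right d a]) b0).trans ?_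
    rw [Real.mul_rpow (by norm_num) r0.le]
    exact mul_le_mul_of_nonneg_right (Real.rpow_le_self_of_one_le (by norm_num) b1) (by positivity)
  refine (mul_le_mul k2 k1 (abs_nonneg _) (by positivity)).trans ?_
  rw [mul_mul_mul_comm, ← Real.rpow_add r0, show β + -2 = -(2 - β) by ring]
  exact mul_le_mul_of_nonneg_left (Real.rpow_le_rpow_of_nonpos d0 (le_max_left _ _) (by linarith))
    (by positivity)

theorem Ya_dom (h : P144DR.Inv μ) (ho : IsOpen D) (hK : K ⊆ D) (hc : IsCompact K) (hM : Maj D E)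
    (hM' : Maj Set.univ (famOf μ)) (hW : MajW D E (famOf μ)) (hs : ∀ w, F w ≠ 0 → ∀ i, w i ∈ K)
    {L : ℝ} (L0 : 0 < L) (h0 : ∀ w, |F w| ≤ L) (h1 : ∀ w w', |F w - F w'| ≤ L * ‖w - w'‖)
    (hP : P ∈ mat univ) (j : Fin m → Fin 2) : ∃ G, Integrable G ∧ ∀ᶠ a in 𝓝[>] (0 : ℝ), ∀ w,
      Function.Injective w → ‖Ya μ E j F P a w‖ ≤ G w := by
  obtain ⟨q1, q2⟩ := mem_mat.1 hP
  obtain ⟨R, R0, hR⟩ := hc.isBounded.exists_pos_norm_le
  have R1 : (0 : ℝ) < R + 2 * P.card + 1 := by positivity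
  obtain ⟨H, f1, hH⟩ := wk_dom ho hK hc hM hM' hW R1 n (univ \ su P)
  obtain ⟨B, B0, hB⟩ := pr_bd hM' R1
  set β : ℝ := 1 / (P.card + 1) with hβ
  have b0 : 0 < β := by positivity
  have b1 : β * (P.card + 1) = 1 := by rw [hβ]; field_simp
  have b2 : 0 ≤ β * P.card := by positivity
  set Q : Set (Fin n ⊕ Fin m → ℂ) := Set.univ.pi fun _ => Metric.ball 0 (R + 2 * P.card + 1)
  have c0 : 0 < 2 ^ P.card * L := by positivity
  refine ⟨Q.indicator fun w => 2 ^ P.card * L * (3 * (B + 4)) ^ P.card *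
    ((∏ e ∈ P, (1 + gk (2 - β) (w (.inr e.2) - w (.inr e.1)))) * H w), (integrable_indicator_iff
    (MeasurableSet.univ_pi fun _ => Metric.isOpen_ball.measurableSet)).2 ?_, ?_⟩
  · rw [IntegrableOn, volume_pi, Measure.restrict_pi_pi]
    refine Integrable.const_mul ?_ _
    have := Fn.pairs (γ := 2 - β) (by linarith) R1 (fun e => Sum.inr e.2) (fun e => Sum.inr e.1) P
      f1 (fun e he => ⟨fun h => ?_, Sum.inr_injective.ne (q1 e he).2.ne⟩) fun e he e' he' h => ?_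
    · exact this
    · exact (Finset.mem_sdiff.1 (inr_mem_disjSum.1 h)).2 (mem_su.2 ⟨e, he, Or.inr rfl⟩)
    · have : (e.1 ≠ e'.1 ∧ e.1 ≠ e'.2) ∧ e.2 ≠ e'.1 ∧ e.2 ≠ e'.2 := by
        simpa using q2 e' he' e he h.symm
      exact ⟨Sum.inr_injective.ne this.2.2, Sum.inr_injective.ne this.2.1⟩
  filter_upwards [hH, hB, self_mem_nhdsWithin] with a hH hB ha w hw
  have p0 : ∀ w : Fin n ⊕ Fin m → ℂ,
      0 ≤ ∏ e ∈ P, (1 + gk (2 - β) (w (.inr e.2) - w (.inr e.1))) :=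
    fun w => prod_nonneg fun e _ => add_nonneg zero_le_one (gk_nonneg _ _)
  by_cases hr : RF F P (sh a w) w = 0
  · rw [Ya, hr, zero_mul, norm_zero]
    exact Set.indicator_nonneg (fun w _ => mul_nonneg (by positivity)
      (mul_nonneg (p0 w) (f1.pos w))) _
  obtain ⟨Q', s1, s2, s3⟩ := RF_ne hr
  have s4 : ∀ i, ‖w i‖ < R + 2 * P.card + 1 := fun i => by linarith [s3 i, hR _ (hs _ s2 i)]
  rw [Set.indicator_of_mem (show w ∈ Q from fun i _ => mem_ball_zero_iff.2 (s4 i)), Ya,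
    Real.norm_eq_abs, abs_mul, abs_mul, ← mul_assoc, ← mul_assoc]
  refine mul_le_mul ?_ (hH j w _ hw (mq_ST s1 _ w) (hs _ s2)) (abs_nonneg _)
    (mul_nonneg (by positivity) (p0 w))
  set v := |RF F P (sh a w) w| / (2 ^ P.card * L) with hv
  have v0 : 0 ≤ v := by positivity
  have v1 : v ≤ 1 := (div_le_one c0).2 (RF_le h0)
  rw [mul_assoc, ← div_le_iff₀' c0, mul_div_right_comm, ← hv, ← prod_const, ← prod_mul_distrib,
    abs_prod]
  refine (mul_le_mul_of_nonneg_right (Real.self_le_rpow_of_le_one v0 v1 (y := β * P.card)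
    (by linarith)) (prod_nonneg fun _ _ => abs_nonneg _)).trans ?_
  rw [Real.rpow_mul_natCast v0, ← prod_const, ← prod_mul_distrib]
  refine prod_le_prod (fun _ _ => by positivity) fun e he => ?_
  have d0 : 0 < min 1 ‖df w e‖ := lt_min one_pos (norm_pos_iff.2 (sub_ne_zero.2
    ((hw.comp Sum.inr_injective).ne (q1 e he).2.ne')))
  refine (pair_le d0 (hB _ _ _ _ _ _ (s4 _).le (s4 _).le ⟨d0, min_le_left _ _⟩
    ⟨d0, min_le_left _ _⟩ ((min_le_right _ _).trans_eq (norm_sub_rev _ _)) (min_le_right _ _))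
    (pr_le h ha j w e) v0 ?_ b0.le (by linarith)).trans
    (mul_le_mul_of_nonneg_left (le_gk _) (by positivity))
  have k1 : v ≤ ‖sh a w e‖ := (div_le_iff₀' c0).2 (RF_le' h0 h1 he)
  have k2 := norm_le_norm_add_norm_sub (df w e) (sh a w e)
  have k3 := sh_near ha w e
  have k4 : (0 : ℝ) < a := ha
  rcases min_choice 1 ‖df w e‖ with e | e <;> rw [e] <;> linarith

theorem corr_univ (a : ℝ) (E : (Config → ℝ) → ℝ) (j : Fin m → Fin 2) (w : Fin n ⊕ Fin m → ℂ) :
    corr a E (sub (pw j w) (univ : Finset (Fin m))) = corr a E (pw j w) :=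
  congrArg E (funext fun σ => congrArg (_ * ·) (prod_em univ fun k => a⁻¹ *
    (sp (σ (fl a (w (.inr k)))) * sp (σ (fl a (w (.inr k)) + dir (j k))) -
      E fun τ => sp (τ (fl a (w (.inr k)))) * sp (τ (fl a (w (.inr k)) + dir (j k))))))

theorem blkI2 : BlkI2 := by
  intro μ C₀ h hM' h₀ D E C ho hP hM hW h1 hC
  have key : ∀ (n m : ℕ) (j : Fin m → Fin 2) (F : Pos n m → ℝ), TestS D F → ∀ P ∈ mat univ,
      Integrable (Y0 C₀ C (fun w => F (sP n m w)) P) ∧
        Tendsto (fun a => ∫ w, Ya μ E j (fun w => F (sP n m w)) P a w) (𝓝[>] 0)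
          (𝓝 (∫ w, Y0 C₀ C (fun w => F (sP n m w)) P w)) := by
    intro n m j F hF P hP'
    obtain ⟨K, hK, hc, hs⟩ : ∃ K ⊆ D, IsCompact K ∧ ∀ w, F (sP n m w) ≠ 0 → ∀ i, w i ∈ K := by
      refine ⟨⋃ i, (fun z => (sP n m).symm z i) '' tsupport F, Set.iUnion_subset fun i => ?_,
        isCompact_iUnion fun i => IsCompact.image hF.2.1 (by fun_prop), fun w hw i =>
          Set.mem_iUnion.2 ⟨i, _, subset_tsupport _ hw, by simp⟩⟩
      rintro _ ⟨z, hz, rfl⟩
      cases i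
      exacts [(hF.2.2 hz).1 _, (hF.2.2 hz).2 _]
    have sF : ContDiff ℝ (⊤ : ℕ∞) fun w => F (sP n m w) := hF.1.comp (sP n m).contDiff
    have cF : HasCompactSupport fun w => F (sP n m w) :=
      hF.2.1.comp_homeomorph (sP n m).toHomeomorph
    obtain ⟨L, hL⟩ := ContDiff.lipschitzWith_of_hasCompactSupport cF sF (by simp)
    obtain ⟨B, hB⟩ := cF.exists_bound_of_continuous sF.continuous
    have B0 : 0 ≤ B := (norm_nonneg _).trans (hB 0)
    obtain ⟨G, g1, g2⟩ := Ya_dom h ho hK hc hM hM' hW hs (L := L + B + 1) (by positivity)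
      (fun w => (hB w).trans (by linarith [L.coe_nonneg])) (fun w w' =>
        (hL.dist_le_mul w w').trans (mul_le_mul (by linarith) (dist_eq_norm _ _).le dist_nonneg
          (by positivity))) hP' j
    have ms : ∀ a, AEStronglyMeasurable (Ya μ E j (fun w => F (sP n m w)) P a) volume := fun a =>
      ((meas_RF sF.continuous P a).mul ((Finset.measurable_prod _ fun e _ => meas_pr _ _ j e).mul
        (meas_wk _ _ _ j _))).aestronglyMeasurable
    have lim : ∀ᵐ w, Tendsto (fun a => Ya μ E j (fun w => F (sP n m w)) P a w) (𝓝[>] 0)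
        (𝓝 (Y0 C₀ C (fun w => F (sP n m w)) P w)) := by
      filter_upwards [ae_inj (Fin n ⊕ Fin m), ae_df n m] with w hw hd
      have ne := fun e he => ((mem_mat.1 hP').1 e he).2.ne
      by_cases hD : ∀ i ∈ ST n (univ \ su P), w i ∈ D
      · exact (tendsto_RF sF.continuous fun e he => hd e (ne e he)).mul ((tendsto_finsetProd _
          fun e he => lim_pr h₀ j hw (ne e he)).mul (lim_wk h₀ hP h1 hC j hw hD))
      · have z : ∀ s, RF (fun w => F (sP n m w)) P s w = 0 := fun s => by_contra fun hr => by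
          obtain ⟨Q, s1, s2, -⟩ := RF_ne hr
          exact hD fun i hi => mq_ST s1 s w i hi ▸ hK (hs _ s2 i)
        simp only [Ya, Y0, z, zero_mul, tendsto_const_nhds]
    refine ⟨g1.mono' (aestronglyMeasurable_of_tendsto_ae _ ms lim) ?_,
      tendsto_integral_filter_of_dominated_convergence G (Eventually.of_forall ms)
        (g2.mono fun a ha => (ae_inj _).mono ha) g1 lim⟩
    filter_upwards [lim, ae_inj (Fin n ⊕ Fin m)] with w h hw
    exact le_of_tendsto h.norm (g2.mono fun a ha => ha w hw)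
  refine ⟨fun n m F => ∑ P ∈ mat univ, ∫ w, Y0 C₀ C (fun w => F (sP n m w)) P w,
    fun n m j F hF => ?_, fun n m j F hF => ?_⟩
  · simp only [one_pow, one_mul, int_sP]
    refine (tendsto_finsetSum _ fun P hP' => (key n m j F hF P hP').2).congr'
      (eventually_mem_nhdsWithin.mono fun a ha => (ren_eq h hP ha j ?_).symm)
    exact (hF.1.continuous.comp (sP n m).continuous).integrable_of_hasCompactSupport
      (hF.2.1.comp_homeomorph (sP n m).toHomeomorph)
  · obtain ⟨K, hK, -, hs⟩ := hF.cpt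
    beta_reduce
    rw [int_sP, ← integral_finsetSum _ fun P hP' =>
      (key n m j F ⟨hF.1, hF.2.1, hF.2.2.1⟩ P hP').1]
    refine integral_congr_ae ((ae_inj _).mono fun w hw => ?_)
    have e1 : ∑ P ∈ mat univ, Y0 C₀ C (fun w => F (sP n m w)) P w =
        F (sP n m w) * C (sub (pw 0 w) (univ : Finset (Fin m))) := by
      have := Ex_add (-fun e => C₀ (pr 0 w e)) (fun e => C₀ (pr 0 w e))
        (fun T => C (sub (pw 0 w) T)) univ
      rw [neg_add_cancel, Ex_zero, Ex_eq] at this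
      rw [this, mul_sum]
      refine sum_congr rfl fun P hP' => ?_
      rw [Y0, RF_diag hP' fun w k l e e' => hF.2.2.2 _ k l e e']
      simp only [Pi.neg_apply, neg_neg]
    refine e1.trans ?_
    by_cases h0 : F (sP n m w) = 0
    · simp only [h0, zero_mul]
    have hD := fun i => hK (hs w h0 i)
    refine congrArg _ (tendsto_nhds_unique (((lim_pw hP h1 hC _ _ (hw.comp (em_inj univ))
      fun i => hD _).congr fun a => corr_univ a _ j w)) (lim_pw hP h1 hC j j hw hD))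

end Vale.Agent.P144DI
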