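import Vale.Agent.P144DI.Mix
import Vale.Agent.P144DX.VFlow

/-!
# Pairs of energies: the lattice statement
-/

namespace Vale.Agent.P144Z

open Finset

/-- The estimates for the mixtures follow from the bounds on the flows. -/
def CoreS : Prop :=
  ∀ (Q : Cls) (q : Par) (L : ℕ) (σ γ : ℝ), 64 ≤ L → q.Ok → FlowOn Q q L σ γ → FlowOff Q q L σ γ →
    CoreV Q q L σ γ

namespace DX

open GU Mn W.R5

variable {Q : Cls} {q : Par} {σ σ' γ : ℝ} {L : ℕ}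

theorem on_up (h : FlowOn Q q L σ γ) (h1 : σ ≤ σ') : FlowOn Q q L σ' γ := fun Λ H hH => by
  obtain ⟨w, hw, a, ha, J₀, h⟩ := h Λ H hH
  exact ⟨w, hw, a, ha, J₀, fun g N a1 a2 a3 a4 a5 a6 u a7 a8 b =>
    h g N a1 a2 a3 a4 a5 a6 u a7 a8 (wt_anti b h1)⟩

theorem off_up (h : FlowOff Q q L σ γ) (h1 : σ ≤ σ') : FlowOff Q q L σ' γ := fun Λ H hH => by
  obtain ⟨w, hw, a, ha, J₀, h⟩ := h Λ H hH
  exact ⟨w, hw, a, ha, J₀, fun g N a1 a2 a3 a4 a5 a6 u a7 a8 b =>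
    h g N a1 a2 a3 a4 a5 a6 u a7 a8 (wt_anti b h1)⟩

theorem latV_of (hO : FlowOffS) (hV : CoreS) : LatV := by
  obtain ⟨ε₁, hε₁, hE⟩ := engT_of initU wtS
  obtain ⟨ε₂, hε₂, hX⟩ := flowX
  obtain ⟨ε₃, -, hI⟩ := flowSU
  obtain ⟨ε₄, hε₄, hN⟩ := flowOn
  obtain ⟨ε₅, hε₅, hO⟩ := hO
  obtain ⟨L₁, hL₁, hP⟩ := flowU
  obtain ⟨η₃, -, L₂, hI⟩ := hI 1 le_rfl
  refine ⟨min (min ε₁ ε₂) (min ε₄ ε₅), by positivity, fun ε hε hε' => ?_⟩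
  simp only [le_min_iff] at hε'
  obtain ⟨L₃, hE⟩ := hE ε hε hε'.1.1
  obtain ⟨L₄, hX⟩ := hX ε hε hε'.1.2
  obtain ⟨L₅, hN⟩ := hN ε hε hε'.2.1
  obtain ⟨L₆, hO⟩ := hO ε hε hε'.2.2
  refine ⟨max (max (max (max L₁ L₂) 64) (max L₃ L₄)) (max L₅ L₆), fun L hL => ?_⟩
  simp only [ge_iff_le, max_le_iff] at hL
  obtain ⟨⟨⟨⟨l1, l2⟩, l3⟩, l4, l5⟩, l6, l7⟩ := hL
  obtain ⟨kf, hE⟩ := hE L l4
  obtain ⟨kf', a, σ', ha, hσ', ηc, hηc, hX⟩ := hX L l5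
  obtain ⟨kn, σn, -, ηn, hηn, hN⟩ := hN L l6
  obtain ⟨σo, -, ηo, hηo, hO⟩ := hO L l7
  obtain ⟨C, hC, ηa, hηa, hP⟩ := hP L l1
  obtain ⟨C', hC', σ, hσ, ηb, hηb, hI⟩ := hI L l2 _ hE
  set E := C + C' with hE'
  have hE0 : 0 < E := by linarith
  set η := min (min (min (min ηa ηb) ηc) (min ηn ηo)) (1 / (20000 * E)) with hη
  have hη0 : 0 < η := by positivity
  have hCη : E * η ≤ 1 / 20000 := by
    calc E * η ≤ E * (1 / (20000 * E)) := mul_le_mul_of_nonneg_left (min_le_right _ _) hE0.le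
      _ = _ := by field_simp
  have m0 : η ≤ min (min (min ηa ηb) ηc) (min ηn ηo) := min_le_left _ _
  simp only [le_min_iff] at m0
  obtain ⟨⟨⟨m1, m2⟩, m3⟩, m4, m5⟩ := m0
  obtain ⟨τ, t1, t2, t3, t4⟩ : ∃ τ : ℝ, σ ≤ τ ∧ σ' ≤ τ ∧ σn ≤ τ ∧ σo ≤ τ :=
    ⟨max (max σ σ') (max σn σo), by simp, by simp, by simp, by simp⟩
  obtain ⟨η', hη', e, hU⟩ := cor_wt (hσ.trans t1) hη0
  refine ⟨η', hη', fun R => ?_⟩
  obtain ⟨δa, hδa, hP⟩ := hP η hη0 m1 R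
  obtain ⟨δb, hδb, hI⟩ := hI η hη0 m2 R
  obtain ⟨δc, hδc, hX⟩ := hX η hη0 m3 R
  obtain ⟨δd, hδd, hU⟩ := hU R
  obtain ⟨δe, hδe, hN⟩ := hN η hη0 m4 R
  obtain ⟨δf, hδf, hO⟩ := hO η hη0 m5 R
  obtain ⟨δ, hδ, d0, d1, d2, d3, d4, d5, d6⟩ : ∃ δ > (0 : ℝ), δ ≤ 1 ∧ δ ≤ δa ∧ δ ≤ δb ∧ δ ≤ δc ∧
      δ ≤ δd ∧ δ ≤ δe ∧ δ ≤ δf := ⟨min (min (min δa δb) (min δc δd)) (min (min δe δf) 1),
    by positivity, by simp, by simp, by simp, by simp, by simp, by simp, by simp⟩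
  refine ⟨δ, hδ, fun q hR hq N => ?_⟩
  obtain ⟨ko, hO⟩ := hO q hR (hq.mono e d6) N
  refine ⟨max (max (kf 1 N) (kf' 0 N)) (max (kn N) ko), fun k hk => ?_⟩
  simp only [ge_iff_le, max_le_iff] at hk
  obtain ⟨Z, z1, z2, z3, hP⟩ := hP q hR (hq.mono e d1)
  replace hI := (hI q hR (hq.mono e d2) Z z2 z3 1 _ ⟨N, k, hk.1.1, rfl⟩).1
  replace hX := hX q hR (hq.mono e d3) 0 N k hk.1.2
  have e1 : C * η ≤ E * η := mul_le_mul_of_nonneg_right (by linarith) hη0.le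
  have e2 : C' * η ≤ E * η := mul_le_mul_of_nonneg_right (by linarith) hη0.le
  have hP' : MN.Pl L q Z (E * η) C := fun N₀ Λ hΛ => by
    obtain ⟨w, hw, J₀, hP⟩ := hP N₀ Λ hΛ
    refine ⟨w, hw, J₀, fun J hJ r h1 h2 => ?_⟩
    obtain ⟨M₀, hP⟩ := hP J hJ r h1 h2
    exact ⟨M₀, fun g a1 a2 a3 N a4 a5 => (hP g a1 a2 a3 N a4 a5).mono e1 le_rfl⟩
  obtain ⟨w, J₀, h⟩ := MN.exists_ref l3 hq.ok hP'
  obtain ⟨s, hs, hs'⟩ := exists_sigma l3 (w := w) (J₀ := J₀) fun i => h (J₀ + i) (by omega) _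
    le_rfl (Nat.mul_le_mul_left _ (sc_mono (by omega) (by omega)))
  have hZ : 1 / 2 ≤ Z := by
    have := abs_le.1 z1
    linarith
  obtain ⟨k3, k4⟩ := mainSU L 1 q Z (E * η) C s σ η (QU L ε k N) l3 hq.ok (by positivity)
  refine ⟨τ, η, hη0.le, hV _ q L τ η l3 hq.ok (on_up (hN q hR (hq.mono e d5) N k hk.2.1) t3)
    (off_up (hO k hk.2.2) t4), fun Raw hG => ?_⟩
  have k5 := MixI.mixS Raw (QU L ε k N) q L τ (η / 2) (η / 2) (Real.exp s) Z (by omega) hq.ok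
    (le_trans hq.small d0) (hσ.trans t1) (half_pos hη0) (hU q L hR (hq.mono le_rfl d4))
  rw [add_halves] at k5
  exact k5 (main_up ((k4 hZ hP' hs').1 (flowQ_mono hI e2)) t1) (en_up (k3 (flowQ_mono hI e2)) t1)
    (mainX_up (mainX_of (by omega) hq.ok ha hX) t2) hG

end DX

end Vale.Agent.P144Z
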