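import Vale.Agent.P144DI.Maj
import Vale.Agent.P144DD.H

/-!
P144 (helper5): block I, dominated convergence with the majorant.
-/

namespace Vale.Agent.P144DI

open Filter Topology MeasureTheory Finset Vale.Agent.P144 Vale.Agent.P144F Vale.Agent.P144DD

theorem ae_inj (ι : Type) [Fintype ι] : ∀ᵐ x : ι → ℂ, Function.Injective x := by
  classical
  have h : ∀ i j : ι, ∀ᵐ x : ι → ℂ, x i = x j → i = j := fun i j => by
    rcases eq_or_ne i j with rfl | h
    · exact Eventually.of_forall fun _ _ => rfl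
    have := Measure.addHaar_submodule (volume : Measure (ι → ℂ))
      (LinearMap.eqLocus (LinearMap.proj (R := ℝ) (φ := fun _ => ℂ) i) (LinearMap.proj j)) fun e => by
        have := e ▸ Submodule.mem_top (x := (Pi.single i 1 : ι → ℂ))
        simp [LinearMap.mem_eqLocus, h.symm] at this
    exact (measure_eq_zero_iff_ae_notMem.1 this).mono fun x hx e => absurd e hx
  filter_upwards [eventually_all.2 fun i => eventually_all.2 (h i)] with x hx i j using hx i j

theorem meas_corr (a : ℝ) (E : (Config → ℝ) → ℝ) {n m : ℕ} (j : Fin m → Fin 2) :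
    Measurable fun w => corr a E (pts j (sP n m w)) :=
  (measurable_of_countable fun c : Fin n ⊕ Fin m → Site => E fun σ =>
    (∏ i, a ^ (-(1 / 8) : ℝ) * sp (σ (c (.inl i)))) * ∏ k, a⁻¹ * (sp (σ (c (.inr k))) *
      sp (σ (c (.inr k) + dir (j k))) - E fun τ => sp (τ (c (.inr k))) *
        sp (τ (c (.inr k) + dir (j k))))).comp
    (measurable_pi_lambda _ fun i => (meas_fl a).comp (measurable_pi_apply i))

theorem lip_F {D : Set ℂ} {n m : ℕ} {F : Pos n m → ℝ} (hF : TestM D F) : ∃ L > 0, ∀ w,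
    |F (sP n m w)| ≤ L ∧ ∀ k l, k ≠ l → |F (sP n m w)| ≤ L * ‖w (.inr k) - w (.inr l)‖ := by
  obtain ⟨C, hC⟩ := ContDiff.lipschitzWith_of_hasCompactSupport hF.2.1 hF.1 (by simp)
  obtain ⟨B, hB⟩ := hF.2.1.exists_bound_of_continuous hF.1.continuous
  have h0 : 0 ≤ B := (norm_nonneg _).trans (hB 0)
  refine ⟨C + B + 1, by positivity, fun w => ⟨(hB _).trans (by linarith [C.2]), fun k l h => ?_⟩⟩
  have h1 := hC.dist_le_mul (sP n m w) ((sP n m w).1, Function.update (sP n m w).2 k (w (.inr l)))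
  rw [hF.2.2.2 ((sP n m w).1, Function.update (sP n m w).2 k (w (.inr l))) k l h
    ((Function.update_self ..).trans (Function.update_of_ne h.symm _ (sP n m w).2).symm),
    Real.dist_eq, sub_zero] at h1
  refine h1.trans (mul_le_mul (by linarith) ?_ dist_nonneg (by positivity))
  rw [Prod.dist_eq, dist_self]
  refine max_le (norm_nonneg _) ((dist_pi_le_iff (norm_nonneg _)).2 fun i => ?_)
  dsimp only
  rcases eq_or_ne i k with rfl | e
  · rw [Function.update_self, dist_eq_norm]
    rfl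
  · rw [Function.update_of_ne e, dist_self]
    exact norm_nonneg _

/-- The integrable majorant of the smeared correlation. -/
theorem dom {D : Set ℂ} {E₀ : Fam} (ho : IsOpen D) (hM : Maj D E₀) {n m : ℕ} (j : Fin m → Fin 2)
    {F : Pos n m → ℝ} (hF : TestM D F) : ∃ G : (Fin n ⊕ Fin m → ℂ) → ℝ, Integrable G ∧
      ∀ᶠ a in 𝓝[>] (0 : ℝ), ∀ w, Function.Injective w →
        ‖F (sP n m w) * corr a (E₀ a) (pts j (sP n m w))‖ ≤ G w := by
  obtain ⟨K, hK, hc, hs⟩ := hF.cpt
  obtain ⟨s, s0, hI⟩ := exists_ins ho hK hc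
  obtain ⟨C, hC⟩ := hM n m s s0
  obtain ⟨L, L0, hL⟩ := lip_F hF
  obtain ⟨R, R0, hR⟩ := hc.isBounded.subset_ball_lt 0 0
  set N := (univ : Finset (Fin n ⊕ Fin m)).card with hN
  set κ : ℝ := 1 / (N + 2) with hκ
  have k0 : 0 < κ := by positivity
  have k1 : κ * (N + 2) = 1 := by rw [hκ]; field_simp
  have N0 : (0 : ℝ) ≤ κ * N := by positivity
  obtain ⟨H, h1, -, h3, -, h5⟩ := maj (γ := 2 - κ) (by linarith) R0 (α := dm n m)
    (fun i => by cases i <;> norm_num [dm]) (fun i => by cases i <;> norm_num [dm]) univ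
  set Q : Set (Fin n ⊕ Fin m → ℂ) := Set.univ.pi fun _ => Metric.ball 0 R with hQ
  refine ⟨Q.indicator fun w => L * (H w * |C|), (integrable_indicator_iff
    (MeasurableSet.univ_pi fun _ => Metric.isOpen_ball.measurableSet)).2 ?_, ?_⟩
  · rw [IntegrableOn, volume_pi, Measure.restrict_pi_pi]
    exact (h3.mul_const _).const_mul L
  filter_upwards [hC] with a ha w hw
  have key : ∀ w : Fin n ⊕ Fin m → ℂ, Function.Injective w → (∀ i, w i ∈ K) → ∀ v, 0 ≤ v → v ≤ 1 →
      (∀ p q, p ≠ q → v ≤ (min 1 ‖w p - w q‖) ^ (dm n m p + dm n m q - (2 - κ))) →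
      v ^ N * |corr a (E₀ a) (pts j (sP n m w))| ≤ H w * |C| := by
    intro w hw hK v v0 v1 hv
    obtain ⟨t, t1, t2, t3⟩ := h5 w v hw v0 v1 hv
    have := ha (pts j (sP n m w)) rfl rfl (hI _ (by rwa [elim_sP])) t t1 (by
      rw [elim_sP]
      exact fun i i' h => t2 i (mem_univ _) i' (mem_univ _) h)
    refine (mul_le_mul_of_nonneg_right t3 (abs_nonneg _)).trans ?_
    rw [mul_assoc]
    refine mul_le_mul_of_nonneg_left (le_trans (le_of_eq ?_) (this.trans (le_abs_self C)))
      (by linarith [h1 w])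
    rw [Fintype.prod_sum_type, mul_comm, mul_assoc]
    simp only [dm, Sum.elim_inl, Sum.elim_inr, Real.rpow_one]
    rfl
  by_cases h0 : F (sP n m w) = 0
  · rw [h0, zero_mul, norm_zero]
    exact Set.indicator_nonneg (fun w _ => mul_nonneg L0.le
      (mul_nonneg (by linarith [h1 w]) (abs_nonneg _))) _
  rw [Set.indicator_of_mem (show w ∈ Q from fun i _ => hR (hs w h0 i)), Real.norm_eq_abs, abs_mul]
  set u := |F (sP n m w)| / L with hu
  have u0 : 0 < u := div_pos (abs_pos.2 h0) L0
  have u1 : u ≤ 1 := (div_le_one L0).2 (hL w).1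
  have := key w hw (hs w h0) (u ^ κ) (by positivity) (Real.rpow_le_one u0.le u1 k0.le) ?_
  · rw [← Real.rpow_mul_natCast u0.le] at this
    refine le_trans ?_ (mul_le_mul_of_nonneg_left this L0.le)
    rw [← mul_assoc]
    refine mul_le_mul_of_nonneg_right ?_ (abs_nonneg _)
    rw [← div_le_iff₀' L0]
    exact Real.self_le_rpow_of_le_one u0.le u1 (by linarith)
  · intro p q hpq
    have d0 : 0 < min 1 ‖w p - w q‖ :=
      lt_min one_pos (norm_pos_iff.2 (sub_ne_zero.2 (hw.ne hpq)))
    have one : ∀ e ≤ (0 : ℝ), u ^ κ ≤ (min 1 ‖w p - w q‖) ^ e := fun e he =>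
      (Real.rpow_le_one u0.le u1 k0.le).trans
        (Real.one_le_rpow_of_pos_of_le_one_of_nonpos d0 (min_le_left _ _) he)
    rcases p with p | p <;> rcases q with q | q
    · exact one _ (by simp only [dm, Sum.elim_inl]; linarith)
    · exact one _ (by simp only [dm, Sum.elim_inl, Sum.elim_inr]; linarith)
    · exact one _ (by simp only [dm, Sum.elim_inl, Sum.elim_inr]; linarith)
    · rw [show dm n m (.inr p) + dm n m (.inr q) - (2 - κ) = κ by simp only [dm, Sum.elim_inr]; ring]
      exact Real.rpow_le_rpow u0.le (le_min u1 ((div_le_iff₀' L0).2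
        ((hL w).2 p q fun e => hpq (congrArg _ e)))) k0.le

theorem blkI : BlkI := by
  rintro D E₀ C ho ⟨μ, _, hμ⟩ hM h1 hC n m j F hF
  obtain ⟨G, g1, g2⟩ := dom ho hM j hF
  obtain ⟨K, hK, -, hs⟩ := hF.cpt
  have ms : ∀ a, AEStronglyMeasurable
      (fun w => F (sP n m w) * corr a (E₀ a) (pts j (sP n m w))) volume := fun a =>
    ((hF.1.continuous.comp (sP n m).continuous).measurable.mul
      (meas_corr a _ j)).aestronglyMeasurable
  have lim : ∀ᵐ w, Tendsto (fun a => F (sP n m w) * corr a (E₀ a) (pts j (sP n m w))) (𝓝[>] 0)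
      (𝓝 (F (sP n m w) * C (pts j (sP n m w)))) := by
    filter_upwards [ae_inj (Fin n ⊕ Fin m)] with w hw
    by_cases h0 : F (sP n m w) = 0
    · simp only [h0, zero_mul, tendsto_const_nhds]
    refine Tendsto.const_mul _ ?_
    rcases Nat.eq_zero_or_pos (n + m) with e | e
    · rw [h1 _ e]
      obtain ⟨rfl, rfl⟩ := Nat.add_eq_zero_iff.1 e
      refine tendsto_const_nhds.congr' (eventually_mem_nhdsWithin.mono fun a ha => ?_)
      have e1 : IsEmpty (Fin (pts j (sP 0 0 w)).n) := inferInstanceAs (IsEmpty (Fin 0))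
      have e2 : IsEmpty (Fin (pts j (sP 0 0 w)).m) := inferInstanceAs (IsEmpty (Fin 0))
      beta_reduce
      rw [corr, hμ a ha]
      simp only [univ_eq_empty, prod_empty, mul_one, integral_const, probReal_univ, one_smul]
    · exact hC _ ⟨e, fun i => hK (hs w h0 (.inl i)), fun k => hK (hs w h0 (.inr k)), by
        rwa [elim_sP]⟩
  refine ⟨((volume_measurePreserving_sumPiEquivProdPi fun _ : Fin n ⊕ Fin m => ℂ).integrable_comp_emb
    (MeasurableEquiv.measurableEmbedding _)).1 (g1.mono'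
      (aestronglyMeasurable_of_tendsto_ae _ ms lim) ?_), ?_⟩
  · filter_upwards [lim, ae_inj (Fin n ⊕ Fin m)] with w h hw
    exact le_of_tendsto h.norm (g2.mono fun a ha => ha w hw)
  · simp only [one_pow, one_mul, int_sP]
    exact tendsto_integral_filter_of_dominated_convergence G (Eventually.of_forall ms)
      (g2.mono fun a ha => (ae_inj _).mono ha) g1 lim

end Vale.Agent.P144DI
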