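import Mathlib.Analysis.SpecialFunctions.Pow.Integral
import Mathlib.MeasureTheory.Integral.Marginal
import Mathlib.MeasureTheory.Group.Integral
import Mathlib.MeasureTheory.Measure.Lebesgue.Complex
import Mathlib.LinearAlgebra.Complex.FiniteDimensional

/-!
P144 (helper5): an integrable majorant, by removing a point of the closest pair.
-/

namespace Vale.Agent.P144DI

open Filter Topology MeasureTheory Finset

variable {ι : Type} [Fintype ι] [DecidableEq ι]

/-- The singular kernel. -/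
noncomputable def gk (γ : ℝ) : ℂ → ℝ := (Metric.ball 0 1).indicator fun u => ‖u‖ ^ (-γ)

theorem gk_nonneg (γ : ℝ) (u : ℂ) : 0 ≤ gk γ u :=
  Set.indicator_nonneg (fun _ _ => by positivity) u

theorem gk_meas (γ : ℝ) : Measurable (gk γ) :=
  Measurable.indicator (by fun_prop) Metric.isOpen_ball.measurableSet

theorem gk_int {γ : ℝ} (h : γ < 2) : Integrable (gk γ) :=
  (integrable_indicator_iff Metric.isOpen_ball.measurableSet).2
    (integrableOn_ball_of_norm_le_rpow (C := 1) (α := γ) (by simp) (by simpa using h)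
      (Eventually.of_forall fun y => by
        rw [one_mul, Real.norm_of_nonneg (by positivity)])
      (Measurable.aestronglyMeasurable (by fun_prop)))

theorem le_gk {γ : ℝ} (u : ℂ) : (min 1 ‖u‖) ^ (-γ) ≤ 1 + gk γ u := by
  rcases lt_or_ge ‖u‖ 1 with h | h
  · rw [min_eq_right h.le, gk, Set.indicator_of_mem (mem_ball_zero_iff.2 h)]
    linarith
  · rw [min_eq_left h, Real.one_rpow]
    linarith [gk_nonneg γ u]

/-- The measure on the configurations. -/
noncomputable def mu (ι : Type) [Fintype ι] (R : ℝ) : Measure (ι → ℂ) :=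
  Measure.pi fun _ => volume.restrict (Metric.ball 0 R)

theorem step {γ R : ℝ} (hγ : γ < 2) (hR : 0 < R) {H : (ι → ℂ) → ℝ} (h0 : ∀ z, 0 ≤ H z)
    (hm : Measurable H) (hi : Integrable H (mu ι R)) {p q : ι} (hpq : q ≠ p)
    (hp : ∀ z y, H (Function.update z p y) = H z) :
    Integrable (fun z => gk γ (z p - z q) * H z) (mu ι R) := by
  have m1 : Measurable fun z : ι → ℂ => gk γ (z p - z q) * H z :=
    ((gk_meas γ).comp (by fun_prop)).mul hm
  set c := ∫⁻ u, ENNReal.ofReal (gk γ u) with hc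
  have c1 : c ≠ ⊤ := (lintegral_ofReal_ne_top_iff_integrable (gk_meas γ).aestronglyMeasurable
    (Eventually.of_forall (gk_nonneg γ))).2 (gk_int hγ)
  set b := volume (Metric.ball (0 : ℂ) R) with hb
  have b0 : b ≠ 0 := (Metric.measure_ball_pos _ _ hR).ne'
  have b1 : b ≠ ⊤ := measure_ball_lt_top.ne
  refine (lintegral_ofReal_ne_top_iff_integrable m1.aestronglyMeasurable
    (Eventually.of_forall fun z => mul_nonneg (gk_nonneg _ _) (h0 z))).1 (ne_top_of_le_ne_top ?_
      (lintegral_le_of_lmarginal_le (g := fun z => c / b * ENNReal.ofReal (H z)) {p}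
        m1.ennreal_ofReal (hm.ennreal_ofReal.const_mul _) ?_))
  · rw [lintegral_const_mul _ hm.ennreal_ofReal]
    exact ENNReal.mul_ne_top (ENNReal.div_ne_top c1 b0) ((lintegral_ofReal_ne_top_iff_integrable
      hm.aestronglyMeasurable (Eventually.of_forall h0)).2 hi)
  · rw [lmarginal_singleton, lmarginal_singleton]
    intro x
    simp only [hp, Function.update_self, Function.update_of_ne hpq,
      ENNReal.ofReal_mul (gk_nonneg _ _), lintegral_const, Measure.restrict_apply_univ]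
    rw [lintegral_mul_const _ (f := fun u => ENNReal.ofReal (gk γ (u - x q)))
      ((gk_meas γ).comp (measurable_sub_const _)).ennreal_ofReal, mul_right_comm, ENNReal.div_mul_cancel b0 b1]
    refine mul_le_mul_left ((setLIntegral_le_lintegral _ _).trans_eq ?_) _
    exact lintegral_sub_right_eq_self (fun u => ENNReal.ofReal (gk γ u)) _

theorem maj {γ R : ℝ} (hγ : γ < 2) (hR : 0 < R) {α : ι → ℝ} (a0 : ∀ i, 0 ≤ α i)
    (a1 : ∀ i, α i ≤ 1) (S : Finset ι) : ∃ H : (ι → ℂ) → ℝ, (∀ z, 1 ≤ H z) ∧ Measurable H ∧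
      Integrable H (mu ι R) ∧ (∀ p ∉ S, ∀ z y, H (Function.update z p y) = H z) ∧
      ∀ (z : ι → ℂ) (v : ℝ), Function.Injective z → 0 ≤ v → v ≤ 1 →
        (∀ p q, p ≠ q → v ≤ (min 1 ‖z p - z q‖) ^ (α p + α q - γ)) →
        ∃ t : ι → ℝ, (∀ p, 0 < t p ∧ t p ≤ 1) ∧ (∀ p ∈ S, ∀ q ∈ S, p ≠ q → t p ≤ ‖z p - z q‖) ∧
          v ^ S.card ≤ H z * ∏ p ∈ S, t p ^ α p := by
  have fin : IsFiniteMeasure (mu ι R) := by
    have : IsFiniteMeasure (volume.restrict (Metric.ball (0 : ℂ) R)) :=
      isFiniteMeasure_restrict.2 measure_ball_lt_top.ne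
    unfold mu
    infer_instance
  induction S using Finset.strongInduction with
  | H S ih =>
  choose G g1 g2 g3 g4 g5 using fun p : S => ih (S.erase p) (erase_ssubset p.2)
  set A : ι → (ι → ℂ) → ℝ := fun p z => 1 + ∑ q ∈ S.erase p, gk γ (z p - z q) with hA
  have A1 : ∀ p z, 1 ≤ A p z := fun p z =>
    le_add_of_nonneg_right (sum_nonneg fun _ _ => gk_nonneg _ _)
  have P0 : ∀ (p : S) z, 0 ≤ 2 ^ S.card * (A p z * G p z) := fun p z =>
    mul_nonneg (by positivity) (mul_nonneg (by linarith [A1 p z]) (by linarith [g1 p z]))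
  refine ⟨fun z => 1 + ∑ p : S, 2 ^ S.card * (A p z * G p z),
    fun z => le_add_of_nonneg_right (sum_nonneg fun p _ => P0 p z), ?_, ?_, fun p hp z y => ?_,
    fun z v hz v0 v1 hv => ?_⟩
  · refine measurable_const.add (Finset.measurable_sum _ fun p _ => measurable_const.mul
      ((measurable_const.add (Finset.measurable_sum _ fun q _ => ?_)).mul (g2 p)))
    exact (gk_meas γ).comp (by fun_prop)
  · refine (integrable_const _).add (integrable_finsetSum _ fun p _ => Integrable.const_mul ?_ _)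
    simp only [hA, add_mul, one_mul, sum_mul]
    exact (g3 p).add (integrable_finsetSum _ fun q hq => step hγ hR
      (fun z => by linarith [g1 p z]) (g2 p) (g3 p) (ne_of_mem_erase hq)
      (g4 p p (notMem_erase _ _)))
  · refine congrArg _ (sum_congr rfl fun r _ => ?_)
    rw [g4 r p fun h => hp (mem_of_mem_erase h)]
    refine congrArg (fun u => 2 ^ S.card * ((1 + u) * G r z)) (sum_congr rfl fun q hq => ?_)
    rw [Function.update_of_ne (ne_of_mem_of_not_mem r.2 hp),
      Function.update_of_ne (ne_of_mem_of_not_mem (mem_of_mem_erase hq) hp)]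
  rcases S.offDiag.eq_empty_or_nonempty with he | he
  · refine ⟨fun _ => 1, fun _ => ⟨one_pos, le_rfl⟩, fun p hp q hq h => ?_, ?_⟩
    · exact absurd (he ▸ mem_offDiag.2 (⟨hp, hq, h⟩ : (p, q).1 ∈ S ∧ _)) (notMem_empty (p, q))
    · simp only [Real.one_rpow, prod_const_one, mul_one]
      exact (pow_le_one₀ v0 v1).trans (le_add_of_nonneg_right (sum_nonneg fun p _ => P0 p z))
  obtain ⟨⟨p, q⟩, hpq, hmin⟩ := exists_min_image _ (fun e : ι × ι => ‖z e.1 - z e.2‖) he
  obtain ⟨hp, hq, hne⟩ : p ∈ S ∧ q ∈ S ∧ p ≠ q := mem_offDiag.1 hpq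
  have hm : ∀ r ∈ S, ∀ r' ∈ S, r ≠ r' → ‖z p - z q‖ ≤ ‖z r - z r'‖ := fun r hr r' hr' h =>
    hmin (r, r') (mem_offDiag.2 ⟨hr, hr', h⟩)
  obtain ⟨t, t1, t2, t3⟩ := g5 ⟨p, hp⟩ z v hz v0 v1 hv
  set d := min 1 ‖z p - z q‖ with hd
  have d0 : 0 < d := lt_min one_pos (norm_pos_iff.2 (sub_ne_zero.2 (hz.ne hne)))
  have hq' : q ∈ S.erase p := mem_erase.2 ⟨hne.symm, hq⟩
  refine ⟨fun r => if r = p ∨ r = q then d else t r / 2, fun r => ?_, fun r hr r' hr' h => ?_, ?_⟩
  · beta_reduce
    split_ifs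
    exacts [⟨d0, min_le_left _ _⟩, ⟨half_pos (t1 r).1, by linarith [t1 r]⟩]
  · beta_reduce
    split_ifs with h1
    · exact (min_le_right _ _).trans (hm r hr r' hr' h)
    · push Not at h1
      rcases eq_or_ne r' p with rfl | h2
      · linarith [t2 r (mem_erase.2 ⟨h1.1, hr⟩) q hq' h1.2, hm r hr r' hr' h,
          norm_sub_le_norm_sub_add_norm_sub (z r) (z r') (z q)]
      · linarith [t2 r (mem_erase.2 ⟨h1.1, hr⟩) r' (mem_erase.2 ⟨h2, hr'⟩) h, t1 r]
  · set T := ∏ r ∈ (S.erase p).erase q, t r ^ α r with hT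
    have T0 : 0 ≤ T := prod_nonneg fun r _ => Real.rpow_nonneg (t1 r).1.le _
    have e1 : ∏ r ∈ S.erase p, t r ^ α r ≤ T := by
      rw [← mul_prod_erase _ _ hq']
      exact mul_le_of_le_one_left T0 (Real.rpow_le_one (t1 q).1.le (t1 q).2 (a0 q))
    have e2 : T ≤ 2 ^ S.card *
        ∏ r ∈ (S.erase p).erase q, (if r = p ∨ r = q then d else t r / 2) ^ α r := by
      refine le_trans ?_ (mul_le_mul_of_nonneg_right (pow_le_pow_right₀ one_le_two
        (card_le_card ((erase_subset q _).trans (erase_subset p S))))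
        (prod_nonneg fun r _ => Real.rpow_nonneg (by split_ifs; exacts [d0.le,
          (half_pos (t1 r).1).le]) _))
      rw [← prod_const, ← prod_mul_distrib]
      refine prod_le_prod (fun r _ => Real.rpow_nonneg (t1 r).1.le _) fun r hr => ?_
      rw [if_neg (not_or.2 ⟨ne_of_mem_erase (mem_of_mem_erase hr), ne_of_mem_erase hr⟩),
        Real.div_rpow (t1 r).1.le zero_le_two, mul_div_assoc',
        le_div_iff₀ (Real.rpow_pos_of_pos two_pos _), mul_comm]
      exact mul_le_mul_of_nonneg_right (Real.rpow_le_self_of_one_le one_le_two (a1 r))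
        (Real.rpow_nonneg (t1 r).1.le _)
    have e3 : v ≤ A p z * (d ^ α p * d ^ α q) := by
      refine (hv p q hne).trans ?_
      rw [← hd, sub_eq_neg_add, Real.rpow_add d0, Real.rpow_add d0]
      refine mul_le_mul_of_nonneg_right ((le_gk _).trans (add_le_add_right ?_ _)) (by positivity)
      exact single_le_sum (f := fun q => gk γ (z p - z q)) (fun _ _ => gk_nonneg _ _) hq'
    beta_reduce
    rw [← mul_prod_erase _ _ hp, ← mul_prod_erase _ _ hq', if_pos (Or.inl rfl),
      if_pos (Or.inr rfl), ← card_erase_add_one hp, pow_succ', card_erase_add_one hp]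
    set U := ∏ r ∈ (S.erase p).erase q, (if r = p ∨ r = q then d else t r / 2) ^ α r with hU
    have G0 : 0 ≤ G ⟨p, hp⟩ z := by linarith [g1 ⟨p, hp⟩ z]
    have U0 : 0 ≤ U := prod_nonneg fun r _ => Real.rpow_nonneg (by
      split_ifs; exacts [d0.le, (half_pos (t1 r).1).le]) _
    have e4 := mul_le_mul e3 (t3.trans (mul_le_mul_of_nonneg_left (e1.trans e2) G0))
      (pow_nonneg v0 _) (v0.trans e3)
    have e5 := single_le_sum (f := fun p : S => (2 : ℝ) ^ S.card * (A p z * G p z))
      (fun p _ => P0 p z) (mem_univ (⟨p, hp⟩ : S))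
    have e6 : (0 : ℝ) ≤ d ^ α p * (d ^ α q * U) := by positivity
    have e7 := mul_le_mul_of_nonneg_right (e5.trans (le_add_of_nonneg_left zero_le_one)) e6
    refine e4.trans (le_trans (le_of_eq ?_) e7)
    ring

end Vale.Agent.P144DI
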