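import Vale.Agent.P144DI.Maj

/-!
P144 (helper5): the integrable majorant with the nearest and the second nearest distance.
-/

namespace Vale.Agent.P144DI

open Filter Topology MeasureTheory Finset

variable {ι : Type} [Fintype ι] [DecidableEq ι]

/-- Nonnegative, measurable, integrable, and a function of the coordinates in `S` only. -/
structure Fn (R : ℝ) (S : Finset ι) (H : (ι → ℂ) → ℝ) : Prop where
  pos : ∀ z, 0 ≤ H z
  ms : Measurable H
  int : Integrable H (mu ι R)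
  dep : ∀ p ∉ S, ∀ z y, H (Function.update z p y) = H z

variable {R γ : ℝ} {S S' : Finset ι} {H : (ι → ℂ) → ℝ}

theorem Fn.mono (h : Fn R S H) (e : S ⊆ S') : Fn R S' H :=
  ⟨h.pos, h.ms, h.int, fun p hp => h.dep p fun h => hp (e h)⟩

theorem Fn.one : Fn R S fun _ => 1 := by
  have : IsFiniteMeasure (volume.restrict (Metric.ball (0 : ℂ) R)) :=
    isFiniteMeasure_restrict.2 measure_ball_lt_top.ne
  have : IsFiniteMeasure (mu ι R) := by
    unfold mu
    infer_instance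
  exact ⟨fun _ => zero_le_one, measurable_const, integrable_const _, fun _ _ _ _ => rfl⟩

theorem Fn.add {H' : (ι → ℂ) → ℝ} (h : Fn R S H) (h' : Fn R S H') : Fn R S fun z => H z + H' z :=
  ⟨fun z => add_nonneg (h.pos z) (h'.pos z), h.ms.add h'.ms, h.int.add h'.int,
    fun p hp z y => by rw [h.dep p hp, h'.dep p hp]⟩

theorem Fn.cmul (h : Fn R S H) {c : ℝ} (hc : 0 ≤ c) : Fn R S fun z => c * H z :=
  ⟨fun z => mul_nonneg hc (h.pos z), h.ms.const_mul c, h.int.const_mul c,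
    fun p hp z y => by rw [h.dep p hp]⟩

theorem Fn.sum {κ : Type} (s : Finset κ) {G : κ → (ι → ℂ) → ℝ} (h : ∀ k ∈ s, Fn R S (G k)) :
    Fn R S fun z => ∑ k ∈ s, G k z :=
  ⟨fun z => sum_nonneg fun k hk => (h k hk).pos z, Finset.measurable_sum _ fun k hk => (h k hk).ms,
    integrable_finsetSum _ fun k hk => (h k hk).int,
    fun p hp z y => sum_congr rfl fun k hk => (h k hk).dep p hp z y⟩

theorem Fn.step (h : Fn R S H) (hγ : γ < 2) (hR : 0 < R) {p q : ι} (hp : p ∉ S) (hq : q ≠ p)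
    (e : S ⊆ S') (hp' : p ∈ S') (hq' : q ∈ S') : Fn R S' fun z => gk γ (z p - z q) * H z :=
  ⟨fun z => mul_nonneg (gk_nonneg _ _) (h.pos z), ((gk_meas γ).comp (by fun_prop)).mul h.ms,
    P144DI.step hγ hR h.pos h.ms h.int hq (h.dep p hp), fun r hr z y => by
      rw [h.dep r fun h => hr (e h), Function.update_of_ne (ne_of_mem_of_not_mem hp' hr),
        Function.update_of_ne (ne_of_mem_of_not_mem hq' hr)]⟩

theorem Fn.pairs {κ : Type} [DecidableEq κ] (hγ : γ < 2) (hR : 0 < R) (f g : κ → ι) (P : Finset κ) :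
    ∀ {S : Finset ι} {H : (ι → ℂ) → ℝ}, Fn R S H → (∀ e ∈ P, f e ∉ S ∧ g e ≠ f e) →
      (∀ e ∈ P, ∀ e' ∈ P, e ≠ e' → f e ≠ f e' ∧ f e ≠ g e') →
      Integrable (fun z => (∏ e ∈ P, (1 + gk γ (z (f e) - z (g e)))) * H z) (mu ι R) := by
  induction P using Finset.induction_on with
  | empty => exact fun h _ _ => by simpa using h.int
  | insert e P he ih =>
    intro S H h h1 h2
    have e0 := mem_insert_self e P
    have s1 : S ⊆ insert (f e) (insert (g e) S) := (subset_insert _ _).trans (subset_insert _ _)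
    have := ih ((h.mono s1).add (h.step hγ hR (h1 e e0).1 (h1 e e0).2 s1 (mem_insert_self _ _)
      (mem_insert_of_mem (mem_insert_self _ _)))) (fun e' he' => ⟨?_, (h1 e' (mem_insert_of_mem
        he')).2⟩) fun a ha b hb => h2 a (mem_insert_of_mem ha) b (mem_insert_of_mem hb)
    · refine this.congr (Eventually.of_forall fun z => ?_)
      simp only [prod_insert he]
      ring
    · have := h2 e' (mem_insert_of_mem he') e e0 fun h => he (h ▸ he')
      simp only [mem_insert, not_or]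
      exact ⟨this.1, this.2, (h1 e' (mem_insert_of_mem he')).1⟩

/-- Bounds for the nearest and for the second nearest distance in `S`. -/
structure Adm (S : Finset ι) (z : ι → ℂ) (t u : ι → ℝ) : Prop where
  t1 : ∀ p, 0 < t p ∧ t p ≤ 1
  u1 : ∀ p, 0 < u p ∧ u p ≤ 1
  t2 : ∀ p ∈ S, ∀ q ∈ S, p ≠ q → t p ≤ ‖z p - z q‖
  u2 : ∀ p ∈ S, ∀ q ∈ S, ∀ r ∈ S, p ≠ q → p ≠ r → q ≠ r → u p ≤ max ‖z p - z q‖ ‖z p - z r‖

omit [Fintype ι] in
theorem Adm.step {z : ι → ℂ} {t u : ι → ℝ} {p q : ι} (h : Adm (S.erase p) z t u) (hq : q ∈ S)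
    (hne : p ≠ q) (hm : ∀ r ∈ S, ∀ r' ∈ S, r ≠ r' → ‖z p - z q‖ ≤ ‖z r - z r'‖) {d D : ℝ}
    (d0 : 0 < d) (d1 : d ≤ 1) (d2 : d ≤ ‖z p - z q‖) (D0 : 0 < D) (D1 : D ≤ 1)
    (D2 : ∀ r ∈ S, r ≠ p → r ≠ q → D ≤ ‖z q - z r‖) :
    Adm S z (fun r => (if r = p ∨ r = q then d else t r) / 2)
      fun r => (if r = p ∨ r = q then 1 else u r) * D / 2 := by
  have hq' : q ∈ S.erase p := mem_erase.2 ⟨hne.symm, hq⟩
  have tri : ∀ r ∈ S, r ≠ p → ∀ r' ∈ S, r' = p → ‖z r - z q‖ ≤ 2 * ‖z r - z r'‖ := by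
    rintro r hr h1 r' hr' rfl
    linarith [hm r hr r' hr' h1, norm_sub_le_norm_sub_add_norm_sub (z r) (z r') (z q)]
  have uD : ∀ r, u r * D ≤ u r ∧ u r * D ≤ D := fun r =>
    ⟨mul_le_of_le_one_right (h.u1 r).1.le D1, mul_le_of_le_one_left D0.le (h.u1 r).2⟩
  refine ⟨fun r => ?_, fun r => ?_, fun r hr r' hr' e => ?_, fun r hr l hl l' hl' e1 e2 e3 => ?_⟩
  · split_ifs
    exacts [⟨half_pos d0, by linarith⟩, ⟨half_pos (h.t1 r).1, by linarith [h.t1 r]⟩]
  · split_ifs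
    exacts [⟨by linarith, by linarith⟩, ⟨half_pos (mul_pos (h.u1 r).1 D0), by linarith [uD r]⟩]
  · split_ifs with h1
    · linarith [hm r hr r' hr' e]
    · push Not at h1
      by_cases h2 : r' = p
      · linarith [h.t2 r (mem_erase.2 ⟨h1.1, hr⟩) q hq' h1.2, tri r hr h1.1 r' hr' h2]
      · linarith [h.t2 r (mem_erase.2 ⟨h1.1, hr⟩) r' (mem_erase.2 ⟨h2, hr'⟩) e, h.t1 r]
  · have key : ∀ l ∈ S, ∀ l' ∈ S, r ≠ l → r ≠ l' → l ≠ l' → l' ≠ p →
        (if r = p ∨ r = q then 1 else u r) * D / 2 ≤ max ‖z r - z l‖ ‖z r - z l'‖ := by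
      intro l hl l' hl' e1 e2 e3 e4
      have m1 := le_max_left ‖z r - z l‖ ‖z r - z l'‖
      have m2 := le_max_right ‖z r - z l‖ ‖z r - z l'‖
      split_ifs with h1
      · have k : ∀ l ∈ S, l ≠ p → l ≠ q → r = p → D / 2 ≤ ‖z r - z l‖ := by
          rintro l hl a1 a2 rfl
          have := tri l hl a1 r hr rfl
          rw [norm_sub_rev, norm_sub_rev (z l)] at this
          linarith [D2 l hl a1 a2]
        rcases h1 with h1 | h1
        · by_cases a : l' = q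
          · linarith [k l hl (h1 ▸ e1.symm) (a ▸ e3) h1]
          · linarith [k l' hl' e4 a h1]
        · have := D2 l' hl' e4 (h1 ▸ e2.symm)
          rw [← h1] at this
          linarith
      · push Not at h1
        have r1 := mem_erase.2 ⟨h1.1, hr⟩
        by_cases a : l = p
        · by_cases b : l' = q
          · have := D2 r hr h1.1 h1.2
            rw [norm_sub_rev, ← b] at this
            linarith [uD r]
          · have := h.u2 r r1 q hq' l' (mem_erase.2 ⟨e4, hl'⟩) h1.2 e2 (Ne.symm b)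
            have k := tri r hr h1.1 l hl a
            rcases le_max_iff.1 this with c | c <;> linarith [uD r, norm_nonneg (z r - z l')]
        · linarith [h.u2 r r1 l (mem_erase.2 ⟨a, hl⟩) l' (mem_erase.2 ⟨e4, hl'⟩) e1 e2 e3, uD r,
            mul_pos (h.u1 r).1 D0]
    by_cases a : l' = p
    · rw [max_comm]
      exact key l' hl' l hl e2 e1 e3.symm (a ▸ e3)
    · exact key l hl l' hl' e1 e2 e3 a

theorem maj2 {η : ℝ} (h0 : 0 < η) (h1 : (Fintype.card ι + 1) * η ≤ 1) (hR : 0 < R) (S : Finset ι) :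
    ∃ H, Fn R S H ∧ ∀ z : ι → ℂ, Function.Injective z →
      ∃ t u, Adm S z t u ∧ 1 ≤ H z * ∏ p ∈ S, t p ^ (1 - η) * u p ^ η := by
  induction S using Finset.strongInduction with
  | H S ih =>
  choose G g1 g2 using fun p : S => ih (S.erase p) (erase_ssubset p.2)
  have hγ : 2 - 2 * η < 2 := by linarith
  have F1 : ∀ p : S, Fn R S fun z => 2 ^ S.card *
      (G p z + ∑ q ∈ S.erase p, gk (2 - 2 * η) (z p - z q) * G p z) := fun p =>
    (((g1 p).mono (erase_subset _ _)).add (Fn.sum _ fun q hq => (g1 p).step hγ hR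
      (notMem_erase _ _) (ne_of_mem_erase hq) (erase_subset _ _) p.2
        (mem_of_mem_erase hq))).cmul (by positivity)
  have F2 := Fn.sum univ fun p _ => F1 p
  refine ⟨_, Fn.one.add F2, fun z hz => ?_⟩
  rcases S.offDiag.eq_empty_or_nonempty with he | he
  · have k : ∀ p ∈ S, ∀ q ∈ S, p ≠ q → False := fun p hp q hq h =>
      absurd (he ▸ mem_offDiag.2 (⟨hp, hq, h⟩ : (p, q).1 ∈ S ∧ _)) (notMem_empty (p, q))
    refine ⟨fun _ => 1, fun _ => 1, ⟨fun _ => ⟨one_pos, le_rfl⟩, fun _ => ⟨one_pos, le_rfl⟩,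
      fun p hp q hq h => (k p hp q hq h).elim, fun p hp q hq _ _ h _ _ => (k p hp q hq h).elim⟩, ?_⟩
    simp only [Real.one_rpow, prod_const_one, mul_one]
    exact le_add_of_nonneg_right (F2.pos z)
  obtain ⟨⟨p, q⟩, hpq, hmin⟩ := exists_min_image _ (fun e : ι × ι => ‖z e.1 - z e.2‖) he
  obtain ⟨hp, hq, hne⟩ : p ∈ S ∧ q ∈ S ∧ p ≠ q := mem_offDiag.1 hpq
  obtain ⟨t, u, a, t3⟩ := g2 ⟨p, hp⟩ z hz
  set d := min 1 ‖z p - z q‖ with hd
  have d0 : 0 < d := lt_min one_pos (norm_pos_iff.2 (sub_ne_zero.2 (hz.ne hne)))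
  have hq' : q ∈ S.erase p := mem_erase.2 ⟨hne.symm, hq⟩
  have D0 := (a.t1 q).1
  have D1 := (a.t1 q).2
  refine ⟨_, _, a.step hq hne (fun r hr r' hr' h => hmin (r, r') (mem_offDiag.2 ⟨hr, hr', h⟩)) d0
    (min_le_left _ _) (min_le_right _ _) D0 D1 fun r hr b1 b2 =>
      a.t2 q hq' r (mem_erase.2 ⟨b1, hr⟩) b2.symm, ?_⟩
  have η1 : (S.card : ℝ) * η ≤ 1 - η := by
    have : (S.card : ℝ) ≤ Fintype.card ι := by exact_mod_cast card_le_univ S
    nlinarith
  have η2 : 0 ≤ 1 - η := le_trans (by positivity) η1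
  have e0 : ∀ x y : ℝ, 0 < x → 0 < y → (x / 2) ^ (1 - η) * (y * t q / 2) ^ η =
      x ^ (1 - η) * y ^ η * (t q ^ η / 2) := fun x y hx hy => by
    rw [Real.div_rpow hx.le zero_le_two, Real.div_rpow (by positivity) zero_le_two,
      Real.mul_rpow hy.le D0.le, Real.rpow_sub two_pos, Real.rpow_one]
    field_simp
  set T := ∏ r ∈ (S.erase p).erase q, t r ^ (1 - η) * u r ^ η with hT
  have T0 : 0 ≤ T := prod_nonneg fun r _ =>
    mul_nonneg (Real.rpow_nonneg (a.t1 r).1.le _) (Real.rpow_nonneg (a.u1 r).1.le _)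
  have e1 : ∏ r ∈ S, ((if r = p ∨ r = q then d else t r) / 2) ^ (1 - η) *
      ((if r = p ∨ r = q then 1 else u r) * t q / 2) ^ η =
      d ^ (2 - 2 * η) * T * ((t q ^ η) ^ S.card / 2 ^ S.card) := by
    rw [prod_congr rfl fun r _ => e0 _ _ (by split_ifs; exacts [d0, (a.t1 r).1])
      (by split_ifs; exacts [one_pos, (a.u1 r).1]), prod_mul_distrib, prod_const, div_pow,
      ← mul_prod_erase _ _ hp, ← mul_prod_erase _ _ hq', if_pos (Or.inl rfl), if_pos (Or.inl rfl),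
      if_pos (Or.inr rfl), if_pos (Or.inr rfl), Real.one_rpow, mul_one, ← mul_assoc,
      ← Real.rpow_add d0, show 1 - η + (1 - η) = 2 - 2 * η by ring]
    refine congrArg (fun x => d ^ (2 - 2 * η) * x * _) (prod_congr rfl fun r hr => ?_)
    have : ¬ (r = p ∨ r = q) :=
      not_or.2 ⟨ne_of_mem_erase (mem_of_mem_erase hr), ne_of_mem_erase hr⟩
    rw [if_neg this, if_neg this]
  have e2 : ∏ r ∈ S.erase p, t r ^ (1 - η) * u r ^ η ≤ (t q ^ η) ^ S.card * T := by
    rw [← mul_prod_erase _ _ hq', ← Real.rpow_mul_natCast D0.le]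
    refine mul_le_mul_of_nonneg_right (le_trans (mul_le_of_le_one_right (by positivity)
      (Real.rpow_le_one (a.u1 q).1.le (a.u1 q).2 h0.le)) ?_) T0
    exact Real.rpow_le_rpow_of_exponent_ge D0 D1 (by linarith)
  have G0 := (g1 ⟨p, hp⟩).pos z
  have e3 : 1 ≤ (1 + ∑ q ∈ S.erase p, gk (2 - 2 * η) (z p - z q)) * d ^ (2 - 2 * η) := by
    rw [← div_le_iff₀ (Real.rpow_pos_of_pos d0 _), one_div, ← Real.rpow_neg d0.le]
    exact (le_gk _).trans (add_le_add_right (single_le_sum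
      (f := fun q => gk (2 - 2 * η) (z p - z q)) (fun _ _ => gk_nonneg _ _) hq') _)
  have e4 := mul_le_mul e3 (t3.trans (mul_le_mul_of_nonneg_left e2 G0)) zero_le_one
    (zero_le_one.trans e3)
  have e5 := single_le_sum (fun p _ => (F1 p).pos z) (mem_univ (⟨p, hp⟩ : S))
  have e6 : (0 : ℝ) ≤ d ^ (2 - 2 * η) * T * ((t q ^ η) ^ S.card / 2 ^ S.card) := by positivity
  have e7 := mul_le_mul_of_nonneg_right (e5.trans (le_add_of_nonneg_left zero_le_one)) e6
  rw [e1]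
  refine ((one_mul _).symm.le.trans e4).trans (le_trans (le_of_eq ?_) e7)
  rw [← sum_mul]
  field_simp

end Vale.Agent.P144DI
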