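import Vale.Agent.P144DX.VDefs
import Vale.Agent.P144DX.Half
import Vale.Agent.P144E.Ge1a.Main

/-!
# The Gibbs states are mixtures of sectors
-/

namespace Vale.Agent.P144Z.MixI

open Finset Matrix UL P144 TiltH FrU

/-- The field of a sector. -/
noncomputable abbrev secA (M : ℕ) (Λ : Finset Site) (fr : Bool) {H : ℕ} (a : Site)
    (hs : Fin H → Site) (S : Finset (Fin H)) : Gauge M :=
  (regOf M Λ fr).pw * (spinG M a (Fin.elim0 : Fin 0 → Site) * holeG M a hs S)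

theorem spins0 (Λ : Finset Site) (r : ℕ) : Spins Λ r (Fin.elim0 : Fin 0 → Site) :=
  ⟨fun i => i.elim0, fun i => i.elim0⟩

/-- The weight of a sector is bounded. -/
theorem secB {Q : Cls} {q : Par} {Zσ Zε σ γ : ℝ} {L : ℕ} (hL : 2 ≤ L)
    (hM : MainU Q q Zσ Zε L 1 σ γ) (N H₀ Λ₁ : ℕ) :
    ∃ (B : ℝ) (J₀ : ℕ), 0 ≤ B ∧ ∀ J ≥ J₀, ∀ (M : ℕ) [NeZero M] (Λ : Finset Site) (fr : Bool)
      (T r H : ℕ) (a : Site) (hs : Fin H → Site), H ≤ H₀ → Rgh (regOf M Λ fr).In N r →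
      (∀ B, Str (regOf M Λ fr).pw B (r - 1) → Q M ((regOf M Λ fr).pw * B) J) → Holes Λ T r a hs →
      (fr = true → H = 0) → 16 * sc L J + 1 ≤ r → r ≤ T → T ≤ Λ₁ * sc L J → M = 64 * T →
      ∀ u : Cor M, u.Ok → u.Off (regOf M Λ fr).pw → u.Wt σ γ → ∀ S,
        |ZwC q u (secA M Λ fr a hs S) 1 / ZwC q u (regOf M Λ fr).pw 1| ≤ B := by
  obtain ⟨CK, Γ, h, hCK, hΓ, hh, r₀, hK⟩ := kStmtW_of gapW N 0 Λ₁
  obtain ⟨C, hM⟩ := hM (H₀ + 1) (64 * Λ₁) Γ h hΓ hh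
  obtain ⟨J₀, hM⟩ := hM 1 one_pos
  refine ⟨(1 + |C|) * CK, max J₀ (r₀ + 1), by positivity,
    fun J hJ M _ Λ fr T r H a hs hH hS hB h1 hfr r1 r2 r3 hMT u d1 d3 d2 S => ?_⟩
  have l1 : 8 * J + 8 ≤ sc L J := sc_ge hL
  have l2 : r₀ + 1 ≤ J := le_of_max_le_right hJ
  have hfr' : fr = true → H = 0 ∧ Even 0 := fun h => ⟨hfr h, Even.zero⟩
  have r4 : 8 * sc L J ≤ r - 3 := by omega
  have hK' := hK M Λ fr T r (sc L J) H Fin.elim0 a hs S hS h1 (spins0 Λ r) hfr' (by omega)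
    (by omega) (by omega) r2 r3 hMT.ge
  obtain ⟨s1, -, -, -, s5, s6⟩ := str_reg (M := M) S h1 (spins0 Λ r) hfr' (by omega) (by omega)
  have b0 := hB 1 (str_one _ _)
  rw [mul_one] at b0
  have hxy : Spins Λ r (Sum.elim (Fin.elim0 : Fin 0 → Site) (Fin.elim0 : Fin 0 → Site)) :=
    ⟨by rintro (i | i) <;> exact i.elim0, by rintro (i | i) <;> exact i.elim0⟩
  have sp := sepW_reg (M := M) S (Fin.elim0 : Fin 0 → Fin 2) J h1 hxy hfr' (by omega) (by omega)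
  have := hM J (le_of_max_le_left hJ) M (regOf M Λ fr).pw _ u (Fin 0) _ _ 0 _ (by simp)
    { P_ok := (regOf M Λ fr).isP
      str := s1.mono (by omega)
      sep := ⟨fun f hf f' h' h'' => sp.ff f hf f' h' (h''.trans r4),
        fun k f hf => sp.fs k f (hf.trans r4), fun k k' hk => r4.trans_lt (sp.ss k k' hk)⟩
      lo := by omega
      hi := by rw [hMT, mul_assoc]; exact Nat.mul_le_mul_left _ r3
      bd := hB _ s1
      bd0 := b0
      gap := hK'.1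
      card := by rw [Fintype.card_fin]; omega
      cnt := s6 } d1 d2 d3 (by positivity) (hK'.2 _ _ _ _)
  simp only [Fintype.card_fin, pow_zero, div_one, one_mul, Nat.cast_zero, zero_div, neg_zero,
    Real.rpow_zero, mul_one] at this
  obtain ⟨e1, e2⟩ := this
  have e3 : mixC q u (regOf M Λ fr).pw (spinG M a (Fin.elim0 : Fin 0 → Site) * holeG M a hs S)
      (fun k : Fin 0 => prj M (dualE (Fin.elim0 k) (Fin.elim0 k)).1)
      (fun k : Fin 0 => (dualE (Fin.elim0 k) (Fin.elim0 k)).2) =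
      ZwC q u (secA M Λ fr a hs S) 1 / ZwC q u (regOf M Λ fr).pw 1 := by
    simp only [mixC, univ_eq_empty, prod_empty]
    rfl
  rw [e3] at e1
  have e4 := mul_le_mul_of_nonneg_right (le_abs_self C) hCK
  have e5 := abs_add_le (_ - _) _ |>.trans (add_le_add e1 e2)
  rw [sub_add_cancel] at e5
  linarith

/-- The gap in the sectors. -/
theorem secGap (N₀ Λ₀ : ℕ) : ∃ (Γ : ℝ) (r₀ : ℕ), 1 ≤ Γ ∧ ∀ (M : ℕ) [NeZero M] (Λ : Finset Site)
    (fr : Bool) (T r ℓ H : ℕ) (a : Site) (hs : Fin H → Site) (S : Finset (Fin H)),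
    Rgh (regOf M Λ fr).In N₀ r → Holes Λ T r a hs → (fr = true → H = 0) → r₀ ≤ ℓ → ℓ + 1 ≤ r →
    r ≤ T → T ≤ Λ₀ * ℓ → M = 64 * T → ∀ φ, φ ⬝ᵥ φ ≤ (Γ * ℓ) ^ 2 *
      ((Dm (secA M Λ fr a hs S) *ᵥ φ) ⬝ᵥ (Dm (secA M Λ fr a hs S) *ᵥ φ)) := by
  obtain ⟨Γ₀, hΓ₀, r₀, HG⟩ := gapW N₀ (Λ₀ + 1)
  refine ⟨Γ₀ * (Λ₀ + 1), r₀ + 1, one_le_mul_of_one_le_of_one_le hΓ₀ (by
    have : (0 : ℝ) ≤ Λ₀ := Nat.cast_nonneg _
    linarith), fun M _ Λ fr T r ℓ H a hs S hS h1 hfr r0 r1 r2 r3 hMT φ => ?_⟩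
  obtain ⟨t1, t2, -, t4, -, -⟩ := str_reg (M := M) S h1 (spins0 Λ r)
    (fun h => ⟨hfr h, Even.zero⟩) (by omega) (by omega)
  have hsq : (Γ₀ * ((T + 1 : ℕ) : ℝ)) ^ 2 ≤ (Γ₀ * (Λ₀ + 1) * ℓ) ^ 2 := by
    refine pow_le_pow_left₀ (by positivity) ?_ 2
    have a1 : T + 1 ≤ (Λ₀ + 1) * ℓ := by rw [add_mul]; omega
    have a2 : ((T + 1 : ℕ) : ℝ) ≤ (Λ₀ + 1) * ℓ := by exact_mod_cast a1
    rw [mul_assoc]
    exact mul_le_mul_of_nonneg_left a2 (by linarith)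
  have hTr : T + 1 ≤ (Λ₀ + 1) * (r - 1) := by
    have a1 : Λ₀ * ℓ ≤ Λ₀ * (r - 1) := Nat.mul_le_mul_left _ (by omega)
    rw [add_mul]
    omega
  have n1 : fr = true → ∀ f, flux (spinG M a (Fin.elim0 : Fin 0 → Site) * holeG M a hs S) f ≠ -1 :=
    fun h f hf => by
      obtain ⟨i, -⟩ := (t4 h f).1 hf
      exact i.elim0
  have := HG M (regOf M Λ fr) _ (T + 1) (r - 1) (hS.mono (by omega)) t1
    (fun f hf => (K.in_le h1.box f hf).trans (by omega)) t2 (by omega) (by omega) hTr (by omega)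
    φ 0 (fun h f hf => absurd hf (n1 h f)) (fun f hf => absurd rfl hf)
  simp only [Pi.zero_apply, zero_smul, Finset.sum_const_zero, sub_zero] at this
  have h2 := this.trans (mul_le_mul_of_nonneg_right hsq (E5.l2sq_nonneg _ _))
  simpa only [K.l2sq_univ'] using h2

theorem off_mul {M : ℕ} [NeZero M] {u : Cor M} {P B : Gauge M} (hP : IsP P) (hB : IsSign B)
    (h : u.Off P) : u.Off (P * B) := fun X hX n => h X (fun x hx => by
  have h1 := hX x hx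
  have h2 := DC.flux_nonneg hP x
  rw [flux_mul] at h1
  rcases DC.flux_sign hB x with e | e <;> rw [e] at h1 <;> linarith) n

theorem nW_mix {M : ℕ} [NeZero M] {H m : ℕ} {q : Par} {Λ : Finset Site} {fr : Bool} {a : Site}
    {hs : Fin H → Site} {W : (Tor M × Fin 2 → Bool) → ℝ} {ι : Type} {s : Finset ι}
    {u : ι → Cor M} {c : ι → ℝ} (hT : ∀ (A : Gauge M) (Φ : (Tor M × Fin 2 → Bool) → ℝ),
      ZwC q ((regOf M Λ fr).cor q) A (fun n => Φ n * W n) /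
          ZwC q ((regOf M Λ fr).cor q) (regOf M Λ fr).pw 1 =
        ∑ U ∈ s, c U * (ZwC q (u U) A Φ / ZwC q (u U) (regOf M Λ fr).pw 1))
    (y : Fin m → Site) (j : Fin m → Fin 2) (e : Fin m → ℝ) (t : Finset (Fin m)) (D : ℝ) :
    nW q (regOf M Λ fr) a hs y j e W Fin.elim0 t / D =
      ∑ i ∈ s ×ˢ (univ : Finset (Finset (Fin H))),
        c i.1 / ZwC q (u i.1) (regOf M Λ fr).pw 1 / D * ZwC q (u i.1) (secA M Λ fr a hs i.2)
          fun n => ∏ k ∈ t, (sgn (n (yE M y j k, dE y j k)) - e k) := by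
  unfold nW
  simp only [hT]
  rw [sum_comm, sum_product, sum_div]
  refine sum_congr rfl fun U _ => ?_
  rw [sum_div]
  exact sum_congr rfl fun S _ => by ring

set_option maxHeartbeats 400000 in
theorem halfM {Q : Cls} {q : Par} {L t : ℕ} {σ γ θ Zσ Zε : ℝ} (hL : 2 ≤ L) (ht : 1 ≤ t)
    (x1 : 1 / 4 ≤ q.x) (x2 : q.x ≤ 1 / 2) (hq : q.Small 1) (hσ : 0 ≤ σ) (hθ : 0 < θ)
    (hΔ : ∀ (M : ℕ) [NeZero M] (R : Reg M),
      (R.cor q).Ok ∧ (R.cor q).Off R.pw ∧ (R.cor q).Wt σ γ)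
    (hM : MainU Q q Zσ Zε L 1 σ (γ + θ)) (hE : EnU Q q L 1 σ (γ + θ)) {J lam β : ℝ}
    (hr : Rel J lam β q) (N₀ H₀ Λ₀ k₀ : ℕ) : ∃ (Γ : ℝ) (J₀ : ℕ), 1 ≤ Γ ∧ ∀ N ≥ J₀,
      ∀ (J₁ M : ℕ) [NeZero M] (Λ P : Finset Site) (fr : Bool) (T r r' H : ℕ) (a : Site)
      (hs : Fin H → Site) (S : Site → Prop), H ≤ H₀ → Rgh (regOf M (dig Λ P t) fr).In N₀ r →
      (∀ B, Str (regOf M (dig Λ P t) fr).pw B (r - 1) → ∀ J', J₁ ≤ J' → J' ≤ N →
        Q M ((regOf M (dig Λ P t) fr).pw * B) J') → J₁ ≤ N → Holes (dig Λ P t) T r a hs →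
      (fr = false → Cn M (dig Λ P t) a hs) → (fr = true → H = 0) →
      (∀ x, S x → ∀ v, zd v x ≤ r → v ∈ dig Λ P t) → 16 * sc L N + 1 ≤ r → r ≤ T → r' ≤ T →
      T ≤ Λ₀ * sc L N → M = 64 * T → (∀ p ∈ P, zd p 0 ≤ T) →
      (∀ p ∈ P, ∀ p' ∈ P, p ≠ p' → r < zd p p') → P.card ≤ k₀ →
        MixM Q q L J₁ (64 * Λ₀) Γ σ (γ + θ)
          (momE (gibbs J lam q.V β (if fr then none else some fun _ => true) Λ)) S r' := by
  obtain ⟨C, hC, hS⟩ := spStmt q.R t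
  obtain ⟨B₁, hT⟩ := tilt k₀ (t + q.R + 2) hC hθ hσ
  obtain ⟨B, Ja, hB, ca⟩ := secB hL hM N₀ H₀ Λ₀
  obtain ⟨Γ, Jb, hΓ, cb⟩ := secGap N₀ Λ₀
  obtain ⟨Bd, cd⟩ := core (kStmtW_of gapW) hL (GU.main_anti hM zero_le_one)
    (GU.en_anti hE zero_le_one le_rfl) N₀ 0 H₀ Λ₀
  obtain ⟨Jd, cd⟩ := cd (1 / (2 * (B₁ ^ 2 + 1))) (by positivity)
  have k0 : 0 ≤ 2 * B₁ ^ 2 * (2 ^ H₀ * B) := by positivity
  refine ⟨Γ + 2 * B₁ ^ 2 * (2 ^ H₀ * B), max (max (max Ja Jb) Jd) (t + q.R + q.R), by linarith,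
    fun N hN J₁ M _ Λ P fr T r r' H a hs S h0 hR Q2 hJ h1 hc hfr hd r4 r5 r7 r6 hMT p1 p2 p3 => ?_⟩
  simp only [ge_iff_le, max_le_iff] at hN
  obtain ⟨⟨⟨j1, j2⟩, j4⟩, j5⟩ := hN
  have l1 : 8 * N + 8 ≤ sc L N := sc_ge hL
  obtain ⟨c1, c2, c3⟩ := hΔ M (regOf M (dig Λ P t) fr)
  have hsep : ∀ p ∈ P, ∀ p' ∈ P, p ≠ p' → 2 * (t + q.R + 2) < zd p p' :=
    fun p hp p' hp' e => lt_of_le_of_lt (by omega) (p2 p hp p' hp' e)
  obtain ⟨O, hO, hb', hG⟩ := hS J lam β q hr hr.range x1 x2 hq M Λ P fr T r H a hs h1 hc hfr p1 hsep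
    (by omega)
  have x0 : 0 < q.x := by linarith
  obtain ⟨u, w, hu, s1, s2, hT⟩ := hT q x0 M (dig Λ P t) P fr T O γ h1.box
    (fun p hp => ⟨p1 p hp, fun v hv h => by
      have := (mem_dig.1 h).2 p hp
      omega⟩) hsep p3 (by omega) hO hb' c1 c2 c3
  have Z0 := (avg x0 h1.box (by omega : 4 * (T + q.R + 2) ≤ M) fr).1
  have QN := fun B hB => Q2 B hB N hJ le_rfl
  have da := ca N j1 M _ fr T r H a hs h0 hR QN h1 hfr r4 r5 r6 hMT
  have db := fun S => cb M _ fr T r (sc L N) H a hs S hR h1 hfr (by omega) (by omega) r5 r6 hMT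
  have dd := cd N (by omega) M _ fr T r H Fin.elim0 Fin.elim0 Fin.elim0 a hs h0 hR QN h1
    ⟨by rintro (i | i) <;> exact i.elim0, by rintro (i | i) <;> exact i.elim0⟩
    (fun h => ⟨hfr h, Even.zero⟩) r4 r5 r6 hMT
  have o1 := TiltH.one_le_mx (M := M) (a := a) (hs := hs) (Fin.elim0 : Fin 0 → Site) Fin.elim0 h1.box
    (by omega) hfr
  have st := fun S => str_reg (M := M) S h1 (spins0 _ r) (fun h => ⟨hfr h, Even.zero⟩) (by omega)
    (by omega)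
  have nf : ∀ S f, flux (secA M (dig Λ P t) fr a hs S) f ≠ -1 := fun S f hf => by
    obtain ⟨i, -⟩ := ((st S).2.2.1 f).1 hf
    exact i.elim0
  set W : (Tor M × Fin 2 → Bool) → ℝ := fun n => ∏ p ∈ P, O p n with hW
  obtain ⟨D, hD⟩ : ∃ D, D = nW q (regOf M (dig Λ P t) fr) a hs (Fin.elim0 : Fin 0 → Site) Fin.elim0
    Fin.elim0 W (Fin.elim0 : Fin 0 → Site) ∅ := ⟨_, rfl⟩
  have b1 : 0 ≤ B₁ := (sum_nonneg fun _ _ => abs_nonneg _).trans s1
  have D1 : 1 ≤ 2 * B₁ * D := by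
    have a1 := nW_eq (a := a) (hs := hs) (y := (Fin.elim0 : Fin 0 → Site)) (j := Fin.elim0)
      (x := (Fin.elim0 : Fin 0 → Site)) hT Fin.elim0 1 1 ∅
    simp only [one_pow, one_mul, powerset_empty, sum_singleton, sdiff_self, bot_eq_empty,
      prod_empty, mul_one] at a1
    rw [← hD] at a1
    have a2 : ∀ U, |mxU q (u U) (regOf M (dig Λ P t) fr) a hs (Fin.elim0 : Fin 0 → Site) Fin.elim0
        (Fin.elim0 : Fin 0 → Site) ∅ - mx par0 (regOf M (dig Λ P t) fr) a hs Fin.elim0 Fin.elim0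
        Fin.elim0 ∅| ≤ 1 / (2 * (B₁ ^ 2 + 1)) := fun U => by
      have a3 := ((dd _ (hu U).1 (hu U).2.1 (hu U).2.2.1).1 ∅).1
      simpa only [Nat.cast_zero, zero_div, Real.rpow_zero, pow_zero, one_mul, card_empty] using a3
    generalize mx par0 (regOf M (dig Λ P t) fr) a hs Fin.elim0 Fin.elim0 Fin.elim0 ∅ = z at a2 o1
    have a4 : |D - (∑ U ∈ P.powerset, w U) * z| ≤ B₁ * (1 / (2 * (B₁ ^ 2 + 1))) := by
      rw [a1, sum_mul, ← sum_sub_distrib]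
      refine (abs_sum_le_sum_abs _ _).trans ((sum_le_sum (g := fun U => |w U| *
        (1 / (2 * (B₁ ^ 2 + 1)))) fun U _ => ?_).trans ?_)
      · rw [← mul_sub, abs_mul]
        exact mul_le_mul_of_nonneg_left (a2 U) (abs_nonneg _)
      · rw [← sum_mul]
        exact mul_le_mul_of_nonneg_right s1 (by positivity)
    have a5 := mul_le_mul_of_nonneg_left (abs_le.1 a4).1 b1
    have a6 : B₁ * (B₁ * (1 / (2 * (B₁ ^ 2 + 1)))) ≤ 1 / 2 := by
      rw [← mul_assoc, mul_one_div, div_le_iff₀ (by positivity)]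
      nlinarith
    have a7 := mul_le_mul s2 o1 zero_le_one (by linarith)
    nlinarith
  have D0 : 0 < D := by
    by_contra h
    nlinarith [mul_nonneg b1 (neg_nonneg.2 (not_lt.1 h))]
  have hi : T ≤ 64 * Λ₀ * sc L N := by rw [mul_assoc]; omega
  refine ⟨M, N, inferInstance, _, P.powerset ×ˢ (univ : Finset (Finset (Fin H))),
    fun i => secA M (dig Λ P t) fr a hs i.2, fun i => u i.1,
    fun i => w i.1 / ZwC q (u i.1) (regOf M (dig Λ P t) fr).pw 1 / D, r7.trans hi,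
    fun i _ => ?_, ?_, ?_, fun x hx => ⟨?_, fun i _ f hf => ?_⟩, fun m y j e t' hy => ?_⟩
  · exact
      { w := Both.isW_mul (regOf M _ fr).isP (st i.2).1.sign
        nf := nf i.2
        lo := by omega
        hi := by rw [hMT, mul_assoc]; exact Nat.mul_le_mul_left _ r6
        R_le := by omega
        gap := fun φ => (db i.2 φ).trans (mul_le_mul_of_nonneg_right (by gcongr; linarith)
          (K.dot_nn _))
        cls := Q2 _ (st i.2).1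
        ok := (hu i.1).1
        off := off_mul (regOf M _ fr).isP (st i.2).1.sign (hu i.1).2.1
        wt := (hu i.1).2.2.1 }
  · have cS : ((univ : Finset (Finset (Fin H))).card : ℝ) ≤ 2 ^ H₀ := by
      rw [card_univ, Fintype.card_finset, Fintype.card_fin]
      exact_mod_cast Nat.pow_le_pow_right (by norm_num) h0
    have k1 : D⁻¹ ≤ 2 * B₁ := by rwa [inv_eq_one_div, div_le_iff₀ D0]
    rw [sum_product]
    refine (sum_le_sum (g := fun U => |w U| * (2 * B₁ * (2 ^ H₀ * B))) fun U _ => ?_).trans ?_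
    · refine (sum_le_card_nsmul _ _ (|w U| * (2 * B₁ * B)) fun S _ => ?_).trans ?_
      · have k2 := da _ (hu U).1 (hu U).2.1 (hu U).2.2.1 S
        have k3 : w U / ZwC q (u U) (regOf M (dig Λ P t) fr).pw 1 / D *
            ZwC q (u U) (secA M (dig Λ P t) fr a hs S) 1 = w U * (D⁻¹ *
            (ZwC q (u U) (secA M (dig Λ P t) fr a hs S) 1 /
              ZwC q (u U) (regOf M (dig Λ P t) fr).pw 1)) := by ring
        rw [k3, abs_mul, abs_mul, abs_of_pos (inv_pos.2 D0)]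
        gcongr
      · rw [nsmul_eq_mul]
        have := mul_le_mul_of_nonneg_right cS (by positivity : 0 ≤ |w U| * (2 * B₁ * B))
        linarith
    · rw [← sum_mul]
      have := mul_le_mul_of_nonneg_right s1 (by positivity : 0 ≤ 2 * B₁ * (2 ^ H₀ * B))
      nlinarith
  · have k := nW_mix (a := a) (hs := hs) hT (Fin.elim0 : Fin 0 → Site) Fin.elim0 Fin.elim0 ∅ D
    rw [← hD, div_self D0.ne'] at k
    simp only [prod_empty] at k
    exact k.symm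
  · have := h1.box x (hd x hx x (by simp [zd_self]))
    omega
  · have k1 : flux (regOf M (dig Λ P t) fr).pw f = 1 := DC.flux_one (r := 7 * sc L N)
      (fun e he => DC.pw_one (hd x hx) fr e (by omega)) hf
    have k2 := nf i.2 f
    rw [flux_mul, k1, one_mul] at k2 ⊢
    exact FM.flux_eq_one (st i.2).1.sign k2
  · have h := sec_W (x := Fin.elim0) (UG.gibbs_one _ _) hG Z0 h1 (fun i => i.elim0)
      (fun k => ⟨hd _ (hy k) _ (by simp [zd_self]),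
        hd _ (hy k) _ ((zd_add_dir _ (j k)).trans (by omega))⟩) (fun _ => Even.zero) e t'
    have k : nW q (regOf M (dig Λ P t) fr) a hs y j e W (Fin.elim0 : Fin 0 → Site) ∅ = D := by
      simp only [hD, nW, prod_empty]
    rw [k, nW_mix hT] at h
    simp only [univ_eq_empty, prod_empty, one_mul] at h
    exact h

open ELat in
theorem mixS : MixS := by
  intro Raw Cl q L σ γ θ Zσ Zε hL2 hq hsm hσ hθ hΔ hM hE _ hD J lam β rq Λ₀
  obtain ⟨t, N, Q, JG, ht, hQ, hD⟩ := hD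
  obtain ⟨H₀, Qh, hQh, hO⟩ := holesW N ((Λ₀ + 1) * (2 * Q))
  obtain ⟨c, hc⟩ : ∃ c : ℕ, c = 2 * Q * (2 * Qh * (2 * 2 * ((Q + 17) * L))) := ⟨_, rfl⟩
  obtain ⟨Γ, J₀, hΓ, c₁⟩ := halfM hL2 ht hq.x_lo hq.x_hi hsm hσ hθ hΔ hM hE rq N H₀
    (2 * (Λ₀ + 1) * c) ((4 * ((Λ₀ + 1) * (2 * Q)) + 1) ^ 2)
  obtain ⟨s, hs⟩ : ∃ s, s = (Q + 17) * sc L (max J₀ JG) := ⟨_, rfl⟩
  refine ⟨JG, 64 * (2 * (Λ₀ + 1) * c), Q * (Qh * (2 * (s + 1))) + 4 * t, Γ, hΓ,
    fun r f0 Λ b hb hR hΛ => ?_⟩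
  have f1 : Qh * (2 * (s + 1)) ≤ r / Q :=
    (Nat.le_div_iff_mul_le hQ).2 (by rw [mul_comm]; omega)
  have f2 : 2 * (s + 1) ≤ r / Q / Qh := (Nat.le_div_iff_mul_le hQh).2 (by rw [mul_comm]; omega)
  have f3 : Qh ≤ r / Q := le_trans (Nat.le_mul_of_pos_right _ (by omega)) f1
  have f4 : Q ≤ r := (Nat.le_mul_of_pos_right Q (by omega : 0 < r / Q)).trans (Nat.mul_div_le r Q)
  have f5 : r / Q ≤ r := Nat.div_le_self _ _
  have f6 : r / Q / Qh ≤ r / Q := Nat.div_le_self _ _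
  have g1 := le_mul_div hQ f4
  have g2 := le_mul_div hQh f3
  have g3 := le_mul_div (Q := 2) (r := r / Q / Qh) (by norm_num) (by omega)
  obtain ⟨ρ, hρ⟩ : ∃ ρ, ρ = r / Q / Qh / 2 := ⟨_, rfl⟩
  rw [← hρ] at g3
  obtain ⟨N', n1, n2, n3⟩ := Mn.exists_scale (c := Q + 17) (J := max J₀ JG) (M := ρ) hL2
    (by omega) (by omega)
  rw [show sc L (N' + 1) = L * sc L N' by unfold sc; ring, ← mul_assoc] at n3
  rw [add_mul] at n2
  have s8 := sc_ge (J := N') hL2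
  have e1 : (Λ₀ + 1) * r = Λ₀ * r + r := by ring
  have e4 : r ≤ c * sc L N' := by
    rw [hc]
    simp only [mul_assoc] at g1 g2 g3 n3 ⊢
    refine g1.trans (by gcongr; refine g2.trans (by gcongr; exact g3.trans (by gcongr)))
  have e5 : 2 * ((Λ₀ + 1) * r) ≤ 2 * (Λ₀ + 1) * c * sc L N' := by
    simp only [mul_assoc]
    gcongr
  have e6 : (Λ₀ + 1) * r ≤ (Λ₀ + 1) * (2 * Q) * (r / Q) := by
    rw [mul_assoc]
    gcongr
  have e7 : 2 * ((Λ₀ + 1) * r + t) ≤ 4 * ((Λ₀ + 1) * (2 * Q)) * (r / Q + 1) := by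
    rw [mul_assoc 4, mul_add_one ((Λ₀ + 1) * (2 * Q))]
    omega
  set T := (Λ₀ + 1) * r with hT
  have hΛ' : ∀ v ∈ Λ, zd v 0 ≤ T := fun v hv => (hΛ v hv).trans (by omega)
  have : NeZero (64 * (2 * T)) := ⟨by omega⟩
  set M := 64 * (2 * T) with hMd
  obtain ⟨P, p1, p0, sW⟩ := hD Λ r T hR f4 (by omega) hΛ'
  obtain ⟨sW, hB⟩ := sW M (by omega)
  obtain ⟨fr, H, hH', a, hs', rfl, h1, hcn, hfr⟩ : ∃ fr : Bool, ∃ H ≤ H₀, ∃ a,
      ∃ hs' : Fin H → Site, b = (if fr then none else some fun _ => true) ∧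
      Holes (dig Λ P t) (2 * T) ρ a hs' ∧ (fr = false → Cn M (dig Λ P t) a hs') ∧
      (fr = true → H = 0) := by
    obtain ⟨H, hH', a, hs', h1, hcn⟩ := hO (dig Λ P t) T (r / Q) M sW f3 (by omega) e6
      (fun v hv => hΛ' v (mem_dig.1 hv).1) (by omega)
    have h2 := holes_mono h1 (r' := ρ) (by omega)
    rcases hb with rfl | rfl
    · exact ⟨true, 0, Nat.zero_le _, a, Fin.elim0, rfl, ⟨h2.box, h2.a_le, fun i => i.elim0,
        h2.a_out, fun i => i.elim0, fun i => i.elim0, fun i => i.elim0⟩, by simp, fun _ => rfl⟩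
    · exact ⟨false, H, hH', a, hs', rfl, h2, fun _ => hcn, by simp⟩
  refine c₁ N' (le_of_max_le_left n1) JG M Λ P fr _ ρ r H a hs' _ hH' (sW.mono (by omega))
    (fun B h J' a1 a2 => hB fr B (ρ - 1) J' h (by omega) a1 ?_) (le_of_max_le_right n1) h1 hcn hfr
    (fun x hx => (spins_dig (r' := ρ) (x := fun _ : Unit => x)
      ⟨fun _ => hx, fun _ _ e => absurd rfl e⟩ (fun p hp => (p1 p hp).2) (by omega)).ins ())
    (by omega) (by omega) (by omega) e5 rfl (fun p hp => (p1 p hp).1.trans (by omega))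
    (fun p hp p' hp' e => lt_of_le_of_lt (by omega) (p0 p hp p' hp' e))
    (B5a2.card_net (fun p hp => (p1 p hp).1) p0 e7)
  have a3 : sc L J' ≤ sc L N' := Nat.mul_le_mul_left _ (Nat.pow_le_pow_right (by omega) a2)
  have a4 := Nat.mul_le_mul_left Q a3
  omega

end Vale.Agent.P144Z.MixI
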