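import Vale.Agent.P144DI.Main
import Vale.Agent.P144DR.Ex
import Mathlib.MeasureTheory.Measure.Haar.Disintegration

/-!
P144 (helper5): the contact terms are moved onto the test function.
-/

namespace Vale.Agent.P144DI

open Filter Topology MeasureTheory Finset Vale.Agent.P144 Vale.Agent.P144F Vale.Agent.P144DD
  Vale.Agent.P144DR

variable {n m : ℕ} {a : ℝ}

/-- The lattice vector as a point of the plane. -/
noncomputable def cx (a : ℝ) (v : Site) : ℂ := ⟨a * v.1, a * v.2⟩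

/-- The indicator of the unit box. -/
noncomputable def ind (s : ℂ) : ℝ := if |s.re| ≤ 1 ∧ |s.im| ≤ 1 then 1 else 0

/-- The difference of the sites, the same in the plane, and its limit. -/
noncomputable def dv (a : ℝ) (w : Fin n ⊕ Fin m → ℂ) (e : Fin m × Fin m) : Site :=
  fl a (w (.inr e.2)) - fl a (w (.inr e.1))
noncomputable def sh (a : ℝ) (w : Fin n ⊕ Fin m → ℂ) (e : Fin m × Fin m) : ℂ := cx a (dv a w e)
def df (w : Fin n ⊕ Fin m → ℂ) (e : Fin m × Fin m) : ℂ := w (.inr e.2) - w (.inr e.1)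

/-- The second points of the pairs in `Q` are moved. -/
noncomputable def mq (Q : Finset (Fin m × Fin m)) (s : Fin m × Fin m → ℂ) (w : Fin n ⊕ Fin m → ℂ) :
    Fin n ⊕ Fin m → ℂ := w - ∑ e ∈ Q, Pi.single (.inr e.2) (s e)

/-- The subtracted test function. -/
noncomputable def RF (F : (Fin n ⊕ Fin m → ℂ) → ℝ) (P : Finset (Fin m × Fin m))
    (s : Fin m × Fin m → ℂ) (w : Fin n ⊕ Fin m → ℂ) : ℝ :=
  ∑ Q ∈ P.powerset, (∏ e ∈ Q, -ind (s e)) * F (mq Q s w)

theorem fl_sub (ha : 0 < a) (z : ℂ) (v : Site) : fl a (z - cx a v) = fl a z - v := by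
  have k : ∀ (u : ℝ) (t : ℤ), ⌊(u - a * t) / a⌋ = ⌊u / a⌋ - t := fun u t => by
    rw [← Int.floor_sub_intCast]
    congr 1
    field_simp
  exact Prod.ext (k z.re v.1) (k z.im v.2)

theorem ind_cx (ha : 0 < a) (v : Site) : ind (cx a v) = if v ∈ bx ⌊a⁻¹⌋₊ then 1 else 0 := by
  have k : ∀ t : ℤ, |a * t| ≤ 1 ↔ t ∈ Icc (-(⌊a⁻¹⌋₊ : ℤ)) ⌊a⁻¹⌋₊ := fun t => by
    rw [mem_Icc, ← abs_le, Int.natCast_floor_eq_floor (by positivity), Int.le_floor, abs_mul,
      abs_of_pos ha, Int.cast_abs, ← le_div_iff₀' ha, one_div]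
  simp only [ind, cx, bx, mem_product, k]

theorem abs_ind (s : ℂ) : |ind s| ≤ 1 := by
  unfold ind
  split_ifs <;> simp

theorem sh_near (ha : 0 < a) (w : Fin n ⊕ Fin m → ℂ) (e : Fin m × Fin m) :
    ‖df w e - sh a w e‖ ≤ 2 * a := by
  have := cell_near ha (z := w (.inr e.2) - sh a w e) (w := w (.inr e.1)) (by
    rw [sh, fl_sub ha, dv, sub_sub_cancel])
  rwa [sub_right_comm] at this

theorem tendsto_sh (w : Fin n ⊕ Fin m → ℂ) (e : Fin m × Fin m) :
    Tendsto (fun a => sh a w e) (𝓝[>] 0) (𝓝 (df w e)) := by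
  rw [tendsto_iff_norm_sub_tendsto_zero]
  have : Tendsto (fun a : ℝ => 2 * a) (𝓝[>] 0) (𝓝 (2 * 0)) :=
    (tendsto_id.const_mul 2).mono_left nhdsWithin_le_nhds
  refine squeeze_zero' (Eventually.of_forall fun _ => norm_nonneg _)
    (eventually_mem_nhdsWithin.mono fun a ha => ?_) (by simpa using this)
  rw [norm_sub_rev]
  exact sh_near ha w e

theorem meas_cell (a : ℝ) {X : Type} [MeasurableSpace X] (φ : (Fin n ⊕ Fin m → Site) → X) :
    Measurable fun w : Fin n ⊕ Fin m → ℂ => φ fun i => fl a (w i) :=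
  (measurable_of_countable φ).comp
    (measurable_pi_lambda _ fun i => (meas_fl a).comp (measurable_pi_apply i))

theorem mq_off {Q : Finset (Fin m × Fin m)} {i : Fin n ⊕ Fin m} (h : ∀ e ∈ Q, i ≠ .inr e.2)
    (s : Fin m × Fin m → ℂ) (w : Fin n ⊕ Fin m → ℂ) : mq Q s w i = w i := by
  rw [mq, Pi.sub_apply, Finset.sum_apply, sum_eq_zero fun e he => Pi.single_eq_of_ne (h e he) _,
    sub_zero]

theorem mq_insert {Q : Finset (Fin m × Fin m)} {e : Fin m × Fin m} (h : e ∉ Q)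
    (s : Fin m × Fin m → ℂ) (w : Fin n ⊕ Fin m → ℂ) :
    mq (insert e Q) s w = mq Q s w - Pi.single (.inr e.2) (s e) := by
  rw [mq, mq, sum_insert h]
  abel

theorem one (ha : 0 < a) {H : (Fin n ⊕ Fin m → ℂ) → ℝ} (hH : Integrable H) (g : Site → ℝ)
    {e : Fin m × Fin m} (he : e.1 ≠ e.2) :
    Integrable (fun w => H (w - Pi.single (.inr e.2) (sh a w e)) *
      (ind (sh a w e) * ((a ^ 2)⁻¹ * g (dv a w e)))) ∧
    ∫ w, H w * ((∑ v ∈ bx ⌊a⁻¹⌋₊, g v) * dl a (w (.inr e.1)) (w (.inr e.2))) =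
      ∫ w, H (w - Pi.single (.inr e.2) (sh a w e)) *
        (ind (sh a w e) * ((a ^ 2)⁻¹ * g (dv a w e))) := by
  set J := fun w => H w * dl a (w (.inr e.1)) (w (.inr e.2)) with hJ
  have iJ : Integrable J := hH.mul_bdd (c := (a ^ 2)⁻¹) (meas_cell a fun c =>
    if c (.inr e.1) = c (.inr e.2) then (a ^ 2)⁻¹ else 0).aestronglyMeasurable
    (Eventually.of_forall fun w => by
      unfold dl
      split_ifs
      · exact (Real.norm_of_nonneg (by positivity)).le
      · rw [norm_zero]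
        positivity)
  have e1 : ∀ w, H (w - Pi.single (.inr e.2) (sh a w e)) *
      (ind (sh a w e) * ((a ^ 2)⁻¹ * g (dv a w e))) =
      ∑ v ∈ bx ⌊a⁻¹⌋₊, g v * J (w - Pi.single (.inr e.2) (cx a v)) := by
    intro w
    have k : ∀ v, J (w - Pi.single (.inr e.2) (cx a v)) =
        if dv a w e = v then H (w - Pi.single (.inr e.2) (cx a v)) * (a ^ 2)⁻¹ else 0 := by
      intro v
      have : (Sum.inr e.1 : Fin n ⊕ Fin m) ≠ .inr e.2 := fun h => he (Sum.inr_injective h)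
      simp only [hJ, dl, Pi.sub_apply, Pi.single_eq_same, Pi.single_eq_of_ne this, sub_zero,
        fl_sub ha, dv, mul_ite, mul_zero]
      refine if_congr ?_ rfl rfl
      rw [eq_sub_iff_add_eq, sub_eq_iff_eq_add', eq_comm]
    simp only [k, mul_ite, mul_zero, sum_ite_eq, sh, ind_cx ha]
    split_ifs <;> ring
  simp only [e1]
  have i1 := fun v => (iJ.comp_sub_right (Pi.single (.inr e.2) (cx a v))).const_mul (g v)
  refine ⟨integrable_finsetSum _ fun v _ => i1 v, ?_⟩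
  rw [integral_finsetSum _ fun v _ => i1 v]
  simp only [integral_const_mul, integral_sub_right_eq_self J, ← sum_mul]
  rw [← integral_const_mul]
  exact integral_congr_ae (Eventually.of_forall fun w => mul_left_comm _ _ _)

theorem iter (ha : 0 < a) (g : Fin m × Fin m → Site → ℝ) (Q : Finset (Fin m × Fin m)) :
    Q ∈ mat univ → ∀ {H : (Fin n ⊕ Fin m → ℂ) → ℝ}, Integrable H →
      Integrable (fun w => H (mq Q (sh a w) w) *
        ∏ e ∈ Q, ind (sh a w e) * ((a ^ 2)⁻¹ * g e (dv a w e))) ∧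
      ∫ w, H w * ∏ e ∈ Q, (∑ v ∈ bx ⌊a⁻¹⌋₊, g e v) * dl a (w (.inr e.1)) (w (.inr e.2)) =
        ∫ w, H (mq Q (sh a w) w) * ∏ e ∈ Q, ind (sh a w e) * ((a ^ 2)⁻¹ * g e (dv a w e)) := by
  induction Q using Finset.induction_on with
  | empty => exact fun _ H hH => by simpa [mq] using hH
  | insert e Q he ih =>
    intro hQ H hH
    obtain ⟨q1, q2⟩ := mem_mat.1 hQ
    have e0 := mem_insert_self e Q
    have ih := @ih (mem_mat.2 ⟨fun e h => q1 e (mem_insert_of_mem h),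
      fun e h e' h' => q2 e (mem_insert_of_mem h) e' (mem_insert_of_mem h')⟩)
    have ne : ∀ e' ∈ Q, (e.1 ≠ e'.1 ∧ e.1 ≠ e'.2) ∧ e.2 ≠ e'.1 ∧ e.2 ≠ e'.2 := fun e' h => by
      simpa using q2 e' (mem_insert_of_mem h) e e0 fun h' => he (h' ▸ h)
    obtain ⟨k1, k2⟩ := one ha (ih hH).1 (g e) (q1 e e0).2.ne
    have e1 : ∀ w : Fin n ⊕ Fin m → ℂ, ∀ e' ∈ Q,
        dv a (w - Pi.single (.inr e.2) (sh a w e)) e' = dv a w e' := fun w e' h => by
      have a1 : (Sum.inr e'.1 : Fin n ⊕ Fin m) ≠ .inr e.2 :=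
        fun h' => (ne e' h).2.1 (Sum.inr_injective h').symm
      have a2 : (Sum.inr e'.2 : Fin n ⊕ Fin m) ≠ .inr e.2 :=
        fun h' => (ne e' h).2.2 (Sum.inr_injective h').symm
      simp only [dv, Pi.sub_apply, Pi.single_eq_of_ne a1, Pi.single_eq_of_ne a2, sub_zero]
    have e2 : ∀ w : Fin n ⊕ Fin m → ℂ, H (mq Q (sh a (w - Pi.single (.inr e.2) (sh a w e)))
        (w - Pi.single (.inr e.2) (sh a w e))) * (∏ e' ∈ Q,
          ind (sh a (w - Pi.single (.inr e.2) (sh a w e)) e') * ((a ^ 2)⁻¹ *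
            g e' (dv a (w - Pi.single (.inr e.2) (sh a w e)) e'))) *
        (ind (sh a w e) * ((a ^ 2)⁻¹ * g e (dv a w e))) = H (mq (insert e Q) (sh a w) w) *
          ∏ e ∈ insert e Q, ind (sh a w e) * ((a ^ 2)⁻¹ * g e (dv a w e)) := fun w => by
      rw [prod_insert he, mul_assoc, mul_comm (∏ _ ∈ _, _)]
      refine congrArg₂ _ (congrArg H ?_) (congrArg _ (prod_congr rfl fun e' h => ?_))
      · rw [mq, mq, sum_insert he, sub_sub]
        exact congrArg (fun x => w - (_ + x)) (sum_congr rfl fun e' h => by rw [sh, e1 w e' h, sh])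
      · rw [sh, e1 w e' h, sh]
    simp only [e2] at k1 k2
    refine ⟨k1, Eq.trans ?_ k2⟩
    have i1 : Integrable fun w => H w *
        ((∑ v ∈ bx ⌊a⁻¹⌋₊, g e v) * dl a (w (.inr e.1)) (w (.inr e.2))) :=
      hH.mul_bdd (c := |∑ v ∈ bx ⌊a⁻¹⌋₊, g e v| * (a ^ 2)⁻¹) (meas_cell a fun c =>
        (∑ v ∈ bx ⌊a⁻¹⌋₊, g e v) *
          if c (.inr e.1) = c (.inr e.2) then (a ^ 2)⁻¹ else 0).aestronglyMeasurable
        (Eventually.of_forall fun w => by
          rw [Real.norm_eq_abs, abs_mul]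
          refine mul_le_mul_of_nonneg_left ?_ (abs_nonneg _)
          unfold dl
          split_ifs
          · exact (abs_of_nonneg (by positivity)).le
          · rw [abs_zero]
            positivity)
    simp only [prod_insert he, ← mul_assoc (H _)] at i1 ⊢
    refine (ih i1).2.trans (integral_congr_ae (Eventually.of_forall fun w => ?_))
    beta_reduce
    rw [mq_off fun e' h h' => (ne e' h).1.2 (Sum.inr_injective h'),
      mq_off fun e' h h' => (ne e' h).2.2 (Sum.inr_injective h')]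
    ring

variable {F : (Fin n ⊕ Fin m → ℂ) → ℝ} {L : ℝ} {P : Finset (Fin m × Fin m)}
  {s : Fin m × Fin m → ℂ} {w : Fin n ⊕ Fin m → ℂ}

theorem abs_pi (Q : Finset (Fin m × Fin m)) (s : Fin m × Fin m → ℂ) : |∏ e ∈ Q, -ind (s e)| ≤ 1 := by
  rw [abs_prod]
  exact prod_le_one (fun _ _ => abs_nonneg _) fun _ _ => (abs_neg _).trans_le (abs_ind _)

theorem RF_le (h0 : ∀ w, |F w| ≤ L) : |RF F P s w| ≤ 2 ^ P.card * L := by
  refine (abs_sum_le_sum_abs _ _).trans ((sum_le_card_nsmul _ _ L fun Q _ => ?_).trans_eq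
    (by simp))
  rw [abs_mul]
  exact (mul_le_of_le_one_left (abs_nonneg _) (abs_pi _ _)).trans (h0 _)

theorem RF_le' (h0 : ∀ w, |F w| ≤ L) (h1 : ∀ w w', |F w - F w'| ≤ L * ‖w - w'‖)
    {e : Fin m × Fin m} (he : e ∈ P) : |RF F P s w| ≤ 2 ^ P.card * L * ‖s e‖ := by
  have L0 : 0 ≤ L := (abs_nonneg _).trans (h0 0)
  rw [RF, ← insert_erase he, sum_powerset_insert (notMem_erase _ _), ← sum_add_distrib,
    insert_erase he]
  refine (abs_sum_le_sum_abs _ _).trans ((sum_le_card_nsmul _ _ (L * ‖s e‖) fun Q hQ => ?_).trans ?_)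
  · have : e ∉ Q := fun h => notMem_erase e P (mem_powerset.1 hQ h)
    rw [prod_insert this, mq_insert this, mul_right_comm, mul_comm _ (F _), ← add_mul, abs_mul]
    refine (mul_le_of_le_one_right (abs_nonneg _) (abs_pi _ _)).trans ?_
    unfold ind
    split_ifs with h
    · rw [neg_one_mul, ← sub_eq_add_neg]
      refine (h1 _ _).trans_eq ?_
      rw [sub_sub_cancel, Pi.norm_single]
    · rw [neg_zero, zero_mul, add_zero]
      refine (h0 _).trans (le_mul_of_one_le_right L0 ?_)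
      rcases not_and_or.1 h with h | h
      exacts [(not_le.1 h).le.trans (Complex.abs_re_le_norm _),
        (not_le.1 h).le.trans (Complex.abs_im_le_norm _)]
  · rw [card_powerset, nsmul_eq_mul, mul_assoc]
    push_cast
    exact mul_le_mul_of_nonneg_right (pow_le_pow_right₀ one_le_two card_erase_le) (by positivity)

theorem RF_ne (h : RF F P s w ≠ 0) :
    ∃ Q ⊆ P, F (mq Q s w) ≠ 0 ∧ ∀ i, ‖w i‖ ≤ ‖mq Q s w i‖ + 2 * P.card := by
  obtain ⟨Q, hQ, h⟩ := exists_ne_zero_of_sum_ne_zero h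
  refine ⟨Q, mem_powerset.1 hQ, right_ne_zero_of_mul h, fun i => ?_⟩
  have k : ∀ e ∈ Q, ‖s e‖ ≤ 2 := fun e he => by
    have := prod_ne_zero_iff.1 (left_ne_zero_of_mul h) e he
    unfold ind at this
    split_ifs at this with h
    · linarith [Complex.norm_le_abs_re_add_abs_im (s e), h.1, h.2]
    · exact absurd neg_zero this
  have c : (Q.card : ℝ) ≤ P.card := by exact_mod_cast card_le_card (mem_powerset.1 hQ)
  have := norm_le_norm_add_norm_sub' (w i) (mq Q s w i)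
  rw [← Pi.sub_apply, mq, sub_sub_cancel] at this
  refine this.trans (add_le_add_right (((norm_le_pi_norm _ i).trans (norm_sum_le _ _)).trans
    ((sum_le_card_nsmul _ _ 2 fun e he => (Pi.norm_single _).trans_le (k e he)).trans ?_)) _)
  rw [nsmul_eq_mul]
  linarith

theorem tendsto_ind {z : ℂ} (h1 : |z.re| ≠ 1) (h2 : |z.im| ≠ 1) : ContinuousAt ind z := by
  have k : ∀ {f : ℂ → ℝ}, Continuous f → f z ≠ 1 → ∀ᶠ y in 𝓝 z, (f y ≤ 1 ↔ f z ≤ 1) := by
    intro f hf h
    rcases h.lt_or_gt with h | h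
    · exact (hf.continuousAt.eventually_lt_const h).mono fun y hy => iff_of_true hy.le h.le
    · exact (hf.continuousAt.eventually_const_lt h).mono fun y hy =>
        iff_of_false (not_le.2 hy) (not_le.2 h)
  refine tendsto_const_nhds.congr' ?_
  filter_upwards [k (f := fun y => |y.re|) (by fun_prop) h1,
    k (f := fun y => |y.im|) (by fun_prop) h2] with y a1 a2
  simp only [ind, a1, a2]

theorem tendsto_RF (hF : Continuous F) (h : ∀ e ∈ P, |(df w e).re| ≠ 1 ∧ |(df w e).im| ≠ 1) :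
    Tendsto (fun a => RF F P (sh a w) w) (𝓝[>] 0) (𝓝 (RF F P (df w) w)) := by
  refine tendsto_finsetSum _ fun Q hQ => (tendsto_finsetProd _ fun e he => ?_).mul
    ((hF.tendsto _).comp (tendsto_const_nhds.sub (tendsto_finsetSum _ fun e _ => ?_)))
  · have := h e (mem_powerset.1 hQ he)
    exact ((tendsto_ind this.1 this.2).tendsto.comp (tendsto_sh w e)).neg
  · exact ((continuous_single (Sum.inr e.2)).tendsto _).comp (tendsto_sh w e)

theorem meas_RF (hF : Continuous F) (P : Finset (Fin m × Fin m)) (a : ℝ) :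
    Measurable fun w => RF F P (sh a w) w :=
  Finset.measurable_sum _ fun Q _ => (meas_cell a fun c => ∏ e ∈ Q,
    -ind (cx a (c (.inr e.2) - c (.inr e.1)))).mul (hF.measurable.comp (measurable_id.sub
      (meas_cell a fun c => ∑ e ∈ Q, (Pi.single (.inr e.2) (cx a (c (.inr e.2) - c (.inr e.1))) :
        Fin n ⊕ Fin m → ℂ))))

theorem RF_diag (hP : P ∈ mat univ) (h : ∀ w k l, k ≠ l → w (.inr k) = w (.inr l) → F w = 0) :
    RF F P (df w) w = F w := by
  obtain ⟨q1, q2⟩ := mem_mat.1 hP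
  rw [RF, sum_eq_single_of_mem ∅ (empty_mem_powerset _) fun Q hQ h0 => ?_]
  · simp [mq]
  obtain ⟨e, he⟩ := nonempty_iff_ne_empty.2 h0
  have hQ := mem_powerset.1 hQ
  have ne : ∀ e' ∈ Q.erase e, (e.1 ≠ e'.1 ∧ e.1 ≠ e'.2) ∧ e.2 ≠ e'.1 ∧ e.2 ≠ e'.2 := fun e' h => by
    simpa using q2 e' (hQ (mem_of_mem_erase h)) e (hQ he) (ne_of_mem_erase h)
  have lt := (q1 e (hQ he)).2.ne
  rw [h _ e.1 e.2 lt, mul_zero]
  rw [← insert_erase he, mq_insert (notMem_erase _ _), Pi.sub_apply, Pi.sub_apply,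
    mq_off fun e' h h' => (ne e' h).1.2 (Sum.inr_injective h'),
    mq_off fun e' h h' => (ne e' h).2.2 (Sum.inr_injective h'), Pi.single_eq_same,
    Pi.single_eq_of_ne fun h' => lt (Sum.inr_injective h'), sub_zero, df, sub_sub_cancel]

theorem ae_df (n m : ℕ) : ∀ᵐ w : Fin n ⊕ Fin m → ℂ, ∀ e : Fin m × Fin m, e.1 ≠ e.2 →
    |(df w e).re| ≠ 1 ∧ |(df w e).im| ≠ 1 := by
  refine eventually_all.2 fun e => ?_
  by_cases he : e.1 = e.2
  · exact Eventually.of_forall fun _ h => absurd he h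
  have k : ∀ l : ℂ →ₗ[ℝ] ℝ, Function.Surjective l → ∀ᵐ w : Fin n ⊕ Fin m → ℂ, |l (df w e)| ≠ 1 := by
    intro l hl
    refine (ae_comp_linearMap_mem_iff (l ∘ₗ (LinearMap.proj (R := ℝ)
      (φ := fun _ : Fin n ⊕ Fin m => ℂ) (.inr e.2) - LinearMap.proj (R := ℝ)
      (φ := fun _ : Fin n ⊕ Fin m => ℂ) (.inr e.1))) volume volume (fun x => ?_) (s := {x | |x| ≠ 1})
      (isOpen_ne_fun continuous_abs continuous_const).measurableSet).2 ?_
    · obtain ⟨y, rfl⟩ := hl x
      exact ⟨Pi.single (.inr e.2) y, by simp [he]⟩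
    · filter_upwards [Measure.ae_ne volume (1 : ℝ), Measure.ae_ne volume (-1 : ℝ)] with x a1 a2 h
      exact ((abs_eq zero_le_one).1 h).elim a1 a2
  filter_upwards [k Complex.reLm Complex.re_surjective, k Complex.imLm Complex.im_surjective]
    with w a1 a2 _ using ⟨a1, a2⟩

end Vale.Agent.P144DI
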