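import Vale.Agent.P144DX.VAlg

/-!
# Pairs of energies: from the sectors to the mixtures
-/

namespace Vale.Agent.P144Z

open Finset Matrix P144 UL

section

variable {M : ℕ} [NeZero M] {m : ℕ}

/-- The mean of the energy `k` in a sector. -/
noncomputable def mS (q : Par) (u : Cor M) (A : Gauge M) (y : Fin m → Site) (j : Fin m → Fin 2)
    (k : Fin m) : ℝ := DV.Ex q u A fun n => sgn (n (yE M y j k, dE y j k))

/-- The centred moments in a sector. -/
noncomputable def cS (q : Par) (u : Cor M) (A : Gauge M) (y : Fin m → Site) (j : Fin m → Fin 2)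
    (t : Finset (Fin m)) : ℝ :=
  DV.Ex q u A fun n => ∏ k ∈ t, (sgn (n (yE M y j k, dE y j k)) - mS q u A y j k)

/-- The field is flat around the point `x`. -/
def FlatAt (A : Gauge M) (ℓ : ℕ) (x : Site) : Prop :=
  4 * (zd x 0 + 2) ≤ M ∧ Flat A (prj M x) (7 * ℓ)

end

/-- Independence of distant pairs and locality, in the sectors. -/
def SecV (Q : Cls) (q : Par) (L : ℕ) (σ γ : ℝ) : Prop :=
  ∀ (J₁ Λ k : ℕ) (Γ : ℝ), 1 ≤ Γ → ∃ (C κ : ℝ) (p : ℕ), 0 < κ ∧ ∀ s d : ℕ, 1 ≤ s → p * s ≤ d →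
    ∀ (M N : ℕ) [NeZero M] (A : Gauge M) (u : Cor M), Sect Q q L N J₁ Λ Γ σ γ A u →
      d ≤ Λ * sc L N →
      (∀ (y : Fin 4 → Site) (j : Fin 4 → Fin 2), (∀ i, FlatAt A (sc L N) (y i)) →
        zd (y 0) (y 1) ≤ s → zd (y 2) (y 3) ≤ s → s ≤ k * (zd (y 0) (y 1) + 1) →
        s ≤ k * (zd (y 2) (y 3) + 1) → d ≤ zd (y 0) (y 2) →
          (∀ t, |cS q u A y j t| * (s : ℝ) ^ t.card ≤ C) ∧
          |cS q u A y j univ - cS q u A y j {0, 1} * cS q u A y j {2, 3}| * (s : ℝ) ^ 4 ≤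
            C * ((s : ℝ) / d) ^ κ) ∧
      ∀ (M' N' : ℕ) [NeZero M'] (A' : Gauge M') (u' : Cor M'), Sect Q q L N' J₁ Λ Γ σ γ A' u' →
        d ≤ Λ * sc L N' → ∀ (y : Fin 2 → Site) (j : Fin 2 → Fin 2),
          (∀ i, FlatAt A (sc L N) (y i) ∧ FlatAt A' (sc L N') (y i)) → zd (y 0) (y 1) ≤ s →
          s ≤ k * (zd (y 0) (y 1) + 1) → ZwC q u A 1 ≠ 0 ∧
            (∀ i, |mS q u A y j i - mS q u' A' y j i| * s ≤ C * ((s : ℝ) / d) ^ κ) ∧
            |cS q u A y j univ - cS q u' A' y j univ| * (s : ℝ) ^ 2 ≤ C * ((s : ℝ) / d) ^ κ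

namespace MixA

theorem near {m : ℕ} (X : Finset (Fin m) → ℝ) (D : Fin m → ℝ) {B η H : ℝ} (hH : 1 ≤ H)
    (hη : η ≤ H) (h0 : 0 ≤ η) (hB : 0 ≤ B) (hD : ∀ k, |D k| ≤ η) (hX : ∀ t, t ≠ univ → |X t| ≤ B) :
    |∑ t ∈ univ.powerset, X t * ∏ k ∈ univ \ t, D k - X univ| ≤ 2 ^ m * (B * (η * H ^ m)) := by
  rw [← add_sum_erase _ _ (mem_powerset_self univ), sdiff_self, bot_eq_empty, prod_empty, mul_one,
    add_sub_cancel_left]
  refine (abs_sum_le_sum_abs _ _).trans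
    ((sum_le_card_nsmul _ _ (B * (η * H ^ m)) fun t ht => ?_).trans ?_)
  · have e1 := (mem_erase.1 ht).1
    obtain ⟨k, hk⟩ : (univ \ t).Nonempty := sdiff_nonempty.2 fun h => e1 (univ_subset_iff.1 h)
    rw [abs_mul, ← mul_prod_erase _ _ hk, abs_mul, abs_prod]
    refine mul_le_mul (hX t e1) (mul_le_mul (hD k) ((prod_le_prod (g := fun _ => H)
      (fun _ _ => abs_nonneg _) fun i _ => (hD i).trans hη).trans ?_) (by positivity) h0)
      (by positivity) hB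
    rw [prod_const]
    exact pow_le_pow_right₀ hH (by simpa using card_le_univ ((univ \ t).erase k))
  · have e3 := card_erase_le (s := (univ : Finset (Fin m)).powerset) (a := univ)
    rw [card_powerset, card_univ, Fintype.card_fin] at e3
    rw [nsmul_eq_mul]
    exact mul_le_mul_of_nonneg_right (by exact_mod_cast e3) (by positivity)

theorem avg {ι : Type} {I : Finset ι} {ω f : ι → ℝ} {Γ z δ : ℝ} (h1 : ∑ i ∈ I, |ω i| ≤ Γ)
    (h2 : ∑ i ∈ I, ω i = 1) (h0 : 0 ≤ δ) (h : ∀ i ∈ I, |f i - z| ≤ δ) :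
    |∑ i ∈ I, ω i * f i - z| ≤ Γ * δ := by
  have e : ∑ i ∈ I, ω i * f i - z = ∑ i ∈ I, ω i * (f i - z) := by
    simp only [mul_sub, sum_sub_distrib, ← sum_mul, h2, one_mul]
  rw [e]
  refine (abs_sum_le_sum_abs _ _).trans ((sum_le_sum (g := fun i => |ω i| * δ) fun i hi => ?_).trans
    ?_)
  · rw [abs_mul]
    exact mul_le_mul_of_nonneg_left (h i hi) (abs_nonneg _)
  · rw [← sum_mul]
    exact mul_le_mul_of_nonneg_right h1 h0

variable {M : ℕ} [NeZero M] {m : ℕ} {q : Par}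

theorem ex_prod (u : Cor M) (A : Gauge M) (y : Fin m → Site) (j : Fin m → Fin 2) (e : Fin m → ℝ)
    (s : ℝ) : DV.Ex q u A (fun n => ∏ k, (sgn (n (yE M y j k, dE y j k)) - e k)) * s ^ m =
      ∑ t ∈ univ.powerset, cS q u A y j t * s ^ t.card *
        ∏ k ∈ univ \ t, (mS q u A y j k - e k) * s := by
  have e1 : (fun c => ∏ k, (sgn (c (yE M y j k, dE y j k)) - e k)) =
      fun c : Tor M × Fin 2 → Bool => ∑ t ∈ univ.powerset,
        (∏ k ∈ univ \ t, (mS q u A y j k - e k)) *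
          ∏ k ∈ t, (sgn (c (yE M y j k, dE y j k)) - mS q u A y j k) := by
    funext c
    rw [prod_congr rfl fun k _ => (sub_add_sub_cancel _ (mS q u A y j k) _).symm, prod_add]
    exact sum_congr rfl fun t _ => mul_comm _ _
  rw [e1, DV.Ex, TiltH.ZwC_sum, sum_div, sum_mul]
  refine sum_congr rfl fun t ht => ?_
  have e2 : s ^ m = s ^ ((univ \ t).card + t.card) := by
    rw [card_sdiff_add_card_eq_card (subset_univ t), card_univ, Fintype.card_fin]
  rw [prod_mul_distrib, prod_const, e2, cS, DV.Ex]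
  ring

theorem mix_near {ι : Type} {I : Finset ι} {A : ι → Gauge M} {u : ι → Cor M} {w : ι → ℝ}
    {Γ : ℝ} {mo : Mom} {y : Fin m → Site} {j : Fin m → Fin 2}
    (h1 : ∑ i ∈ I, |w i * ZwC q (u i) (A i) 1| ≤ Γ) (h2 : ∑ i ∈ I, w i * ZwC q (u i) (A i) 1 = 1)
    (h3 : ∀ e t, mo m y j e t = ∑ i ∈ I, w i * ZwC q (u i) (A i)
      fun n => ∏ k ∈ t, (sgn (n (yE M y j k, dE y j k)) - e k))
    (hZ : ∀ i ∈ I, ZwC q (u i) (A i) 1 ≠ 0) {s δ δ' B H z : ℝ} (hs : 0 ≤ s) (h0 : 0 ≤ δ)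
    (h0' : 0 ≤ δ') (hB : 0 ≤ B) (hH : 1 ≤ H) (hδ : Γ * δ ≤ H)
    (hm : ∀ i ∈ I, ∀ i' ∈ I, ∀ k, |mS q (u i) (A i) y j k - mS q (u i') (A i') y j k| * s ≤ δ)
    (hc : ∀ i ∈ I, ∀ t, t ≠ univ → |cS q (u i) (A i) y j t| * s ^ t.card ≤ B)
    (hz : ∀ i ∈ I, |cS q (u i) (A i) y j univ * s ^ m - z| ≤ δ') :
    |cen mo y j * s ^ m - z| ≤ Γ * (δ' + 2 ^ m * (B * (Γ * δ * H ^ m))) := by
  have Γ0 : 0 ≤ Γ := (sum_nonneg fun _ _ => abs_nonneg _).trans h1
  have h4 : ∀ e t, mo m y j e t = ∑ i ∈ I, w i * ZwC q (u i) (A i) 1 * DV.Ex q (u i) (A i)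
      fun n => ∏ k ∈ t, (sgn (n (yE M y j k, dE y j k)) - e k) := fun e t => by
    rw [h3]
    exact sum_congr rfl fun i hi => by rw [DV.Ex, mul_assoc, mul_div_cancel₀ _ (hZ i hi)]
  rw [cen, h4, sum_mul]
  simp only [mul_assoc _ _ (s ^ m), ex_prod]
  refine avg h1 h2 (by positivity) fun i hi => ?_
  have k := near (fun t => cS q (u i) (A i) y j t * s ^ t.card)
    (fun k => (mS q (u i) (A i) y j k - mo m y j 0 {k}) * s) hH hδ (by positivity) hB (fun k => by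
      have k1 := avg (f := fun i' => mS q (u i') (A i') y j k * s) h1 h2 h0
        (z := mS q (u i) (A i) y j k * s) fun i' hi' => by
          rw [← sub_mul, abs_mul, abs_of_nonneg hs]
          exact hm i' hi' i hi k
      rw [abs_sub_comm] at k1
      simpa only [h4, prod_singleton, Pi.zero_apply, sub_zero, sub_mul, sum_mul, mul_assoc, mS]
        using k1) fun t ht => by
      rw [abs_mul, abs_of_nonneg (pow_nonneg hs _)]
      exact hc i hi t ht
  simp only [card_univ, Fintype.card_fin] at k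
  have k2 := (abs_add_le _ _).trans (add_le_add (hz i hi) k)
  exact le_trans (le_of_eq (congrArg _ (by ring))) k2

theorem cS_two {u : Cor M} {A : Gauge M} (hZ : ZwC q u A 1 ≠ 0) (y : Fin 2 → Site)
    (j : Fin 2 → Fin 2) (s : ℝ) {t : Finset (Fin 2)} (ht : t ≠ univ) :
    |cS q u A y j t| * s ^ t.card ≤ 1 := by
  have k : ∀ i, |cS q u A y j {i}| * s ^ ({i} : Finset (Fin 2)).card ≤ 1 := fun i => by
    simp only [cS, prod_singleton, DV.Ex_sub hZ, mS, sub_self, abs_zero, zero_mul, zero_le_one]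
  have h : t = ∅ ∨ t = {0} ∨ t = {1} := by revert t; decide
  rcases h with rfl | rfl | rfl
  · simp only [cS, prod_empty, card_empty, pow_zero, mul_one]
    exact (congrArg _ (div_self hZ)).trans_le abs_one.le
  exacts [k 0, k 1]

theorem cS_01 (u : Cor M) (A : Gauge M) (y : Fin 4 → Site) (j : Fin 4 → Fin 2) :
    cS q u A y j {0, 1} = cS q u A ![y 0, y 1] ![j 0, j 1] univ := by
  simp only [cS, Fin.prod_univ_two, prod_pair (by decide : (0 : Fin 4) ≠ 1)]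
  rfl

theorem cS_23 (u : Cor M) (A : Gauge M) (y : Fin 4 → Site) (j : Fin 4 → Fin 2) :
    cS q u A y j {2, 3} = cS q u A ![y 2, y 3] ![j 2, j 3] univ := by
  simp only [cS, Fin.prod_univ_two, prod_pair (by decide : (2 : Fin 4) ≠ 3)]
  rfl

end MixA

end Vale.Agent.P144Z
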