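import Vale.Agent.P144DI.Ren
import Vale.Agent.P144DI.Maj2
import Vale.Agent.P144DR.Blk
import Vale.Agent.P144DZ.Plane

/-!
P144 (helper5): the pair-subtracted correlation is dominated and converges.
-/

namespace Vale.Agent.P144DI

open Filter Topology MeasureTheory Finset Vale.Agent.P144 Vale.Agent.P144F Vale.Agent.P144DD
  Vale.Agent.P144DR Vale.Agent.P144Z

variable {n m : ℕ} {a : ℝ} {μ : Measure Config} {D K : Set ℂ} {E : Fam}

/-- The points of a configuration. -/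
noncomputable abbrev pw (j : Fin m → Fin 2) (w : Fin n ⊕ Fin m → ℂ) : Pts := pts j (sP n m w)

/-- The points of a pair. -/
noncomputable abbrev pr (j : Fin m → Fin 2) (w : Fin n ⊕ Fin m → ℂ) (e : Fin m × Fin m) : Pts :=
  ens ![w (.inr e.1), w (.inr e.2)] ![j e.1, j e.2]

/-- The spins and the energies in `T`. -/
abbrev ST (n : ℕ) (T : Finset (Fin m)) : Finset (Fin n ⊕ Fin m) := univ.disjSum T

/-- The enumeration of these points. -/
def em (n : ℕ) (T : Finset (Fin m)) : Fin n ⊕ Fin T.card → Fin n ⊕ Fin m :=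
  Sum.map id (T.orderEmbOfFin rfl)

theorem em_inj (T : Finset (Fin m)) : Function.Injective (em n T) :=
  Function.injective_id.sumMap (T.orderEmbOfFin rfl).injective

theorem em_mem (T : Finset (Fin m)) (i : Fin n ⊕ Fin T.card) : em n T i ∈ ST n T := by
  rcases i with i | i
  exacts [inl_mem_disjSum.2 (mem_univ _), inr_mem_disjSum.2 (orderEmbOfFin_mem _ _ _)]

theorem sub_pw (j : Fin m → Fin 2) (w : Fin n ⊕ Fin m → ℂ) (T : Finset (Fin m)) :
    sub (pw j w) T = pw (j ∘ T.orderEmbOfFin rfl) (w ∘ em n T) := rfl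

theorem prod_em (T : Finset (Fin m)) (f : Fin m → ℝ) :
    ∏ k : Fin T.card, f (T.orderEmbOfFin rfl k) = ∏ k ∈ T, f k := by
  conv_rhs => rw [← map_orderEmbOfFin_univ T rfl, prod_map]
  rfl

theorem meas_mk (a : ℝ) (E : (Config → ℝ) → ℝ) (j : Fin m → Fin 2) {X : Type} [MeasurableSpace X]
    {x : X → Fin n → ℂ} {y : X → Fin m → ℂ} (hx : ∀ i, Measurable fun w => x w i)
    (hy : ∀ i, Measurable fun w => y w i) : Measurable fun w => corr a E ⟨n, m, x w, y w, j⟩ := by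
  rw [show (fun w => corr a E ⟨n, m, x w, y w, j⟩) = (fun w => corr a E (pts j (sP n m w))) ∘
    fun w => Sum.elim (x w) (y w) from funext fun w => congrArg (corr a E) rfl]
  refine (meas_corr a E j).comp (measurable_pi_lambda _ ?_)
  rintro (i | i)
  exacts [hx i, hy i]

theorem meas_sub (a : ℝ) (E : (Config → ℝ) → ℝ) (j : Fin m → Fin 2) (T : Finset (Fin m)) :
    Measurable fun w : Fin n ⊕ Fin m → ℂ => corr a E (sub (pw j w) T) := by
  have := meas_mk a E (j ∘ T.orderEmbOfFin rfl) (x := fun (w : Fin n ⊕ Fin m → ℂ) i => w (.inl i))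
    (y := fun w k => w (.inr (T.orderEmbOfFin rfl k))) (fun _ => measurable_pi_apply _)
    fun _ => measurable_pi_apply _
  exact (funext fun w => congrArg (corr a E) rfl : _ = _) ▸ this

theorem meas_pr (a : ℝ) (E : (Config → ℝ) → ℝ) (j : Fin m → Fin 2) (e : Fin m × Fin m) :
    Measurable fun w : Fin n ⊕ Fin m → ℂ => corr a E (pr j w e) := by
  unfold pr ens
  refine meas_mk a E _ (fun i => i.elim0) fun i => ?_
  fin_cases i <;> exact measurable_pi_apply _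

theorem wk_eq (a : ℝ) (E E' : (Config → ℝ) → ℝ) (j : Fin m → Fin 2) (w : Fin n ⊕ Fin m → ℂ)
    (T : Finset (Fin m)) : wk a E E' (pw j w) T =
      Ex (fun e => corr a E' (pr j w e)) (fun T => corr a E (sub (pw j w) T)) T := rfl

theorem meas_wk (a : ℝ) (E E' : (Config → ℝ) → ℝ) (j : Fin m → Fin 2) (T : Finset (Fin m)) :
    Measurable fun w : Fin n ⊕ Fin m → ℂ => wk a E E' (pw j w) T := by
  simp only [wk_eq, Ex_eq]
  exact Finset.measurable_sum _ fun P _ =>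
    (Finset.measurable_prod P fun e _ => (meas_pr a E' j e).neg).mul (meas_sub a E j _)

theorem corr_fl (E : (Config → ℝ) → ℝ) {x x' : Fin n → ℂ} {y y' : Fin m → ℂ} (j : Fin m → Fin 2)
    (hx : ∀ i, fl a (x i) = fl a (x' i)) (hy : ∀ i, fl a (y i) = fl a (y' i)) :
    corr a E ⟨n, m, x, y, j⟩ = corr a E ⟨n, m, x', y', j⟩ := by
  simp only [corr, hx, hy]

theorem pr_eq (h : P144DR.Inv μ) (ha : 0 < a) (j : Fin m → Fin 2) (w : Fin n ⊕ Fin m → ℂ)
    (e : Fin m × Fin m) :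
    corr a (famOf μ a) (pr j w e) = (a ^ 2)⁻¹ * g2 μ (j e.1) (j e.2) (dv a w e) := by
  have := P144DZ.corr_mv (h.2 (fl a (w (.inr e.1)))) ha ha (pr j w e)
  have k := fun z => eq_sub_of_add_eq (fl_shift ha ha z (fl a (w (.inr e.1))))
  rw [div_self ha.ne'] at this k
  have f0 : fl 1 0 = 0 := by simp [fl]
  have f1 : ∀ v : Site, fl 1 ⟨v.1, v.2⟩ = v := fun v => by simp [fl]
  rw [eq_inv_mul_iff_mul_eq₀ (by positivity), mul_comm]
  refine Eq.trans (Eq.trans ?_ this.symm) ?_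
  · exact congrArg (· * a ^ 2) ((mul_one _).symm.trans (congrArg _ (pow_zero _).symm))
  · refine corr_fl (n := 0) (m := 2) _ _ (fun i => i.elim0) fun i => ?_
    fin_cases i
    exacts [(k _).trans ((sub_self _).trans f0.symm), (k _).trans (f1 _).symm]

theorem pr_le (h : P144DR.Inv μ) (ha : 0 < a) (j : Fin m → Fin 2) (w : Fin n ⊕ Fin m → ℂ)
    (e : Fin m × Fin m) : |corr a (famOf μ a) (pr j w e)| * a ^ 2 ≤ 4 := by
  have := h.1
  have k := abs_kc (ker_kern (n := 0) μ ![j e.1, j e.2] ha) μ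
    (Sum.elim ![] ![w (.inr e.1), w (.inr e.2)])
  rw [corr_kc (E := famOf μ a) (μ := μ) fun _ => rfl, ← le_div_iff₀ (by positivity)]
  refine k.trans_eq ?_
  simp only [Fintype.prod_sum_type, univ_eq_empty, prod_empty, dm, Sum.elim_inr, Real.rpow_one,
    prod_const, card_fin]
  ring

theorem pr_bd (h : Maj Set.univ E) {R : ℝ} (hR : 0 < R) : ∃ C, 0 ≤ C ∧ ∀ᶠ a in 𝓝[>] (0 : ℝ),
    ∀ (y y' : ℂ) (j j' : Fin 2) (t t' : ℝ), ‖y‖ ≤ R → ‖y'‖ ≤ R → 0 < t ∧ t ≤ 1 → 0 < t' ∧ t' ≤ 1 →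
      t ≤ ‖y - y'‖ → t' ≤ ‖y' - y‖ → |corr a (E a) (ens ![y, y'] ![j, j'])| * (t * t') ≤ C := by
  obtain ⟨C, h⟩ := h 0 2 R⁻¹ (by positivity)
  refine ⟨|C|, abs_nonneg _, h.mono fun a h y y' j j' t t' h1 h2 h3 h4 h5 h6 => ?_⟩
  have := h (ens ![y, y'] ![j, j']) rfl rfl ?_ (Sum.elim ![] ![t, t']) ?_ ?_
  · refine le_trans (le_of_eq ?_) (this.trans (le_abs_self C))
    exact congrArg₂ _ ((mul_one _).symm.trans (congrArg _ (Fin.prod_univ_zero _).symm))
      (Fin.prod_univ_two ![t, t']).symm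
  · rintro (i | i)
    · exact i.elim0
    · rw [inv_inv]
      fin_cases i
      exacts [⟨h1, Set.subset_univ _⟩, ⟨h2, Set.subset_univ _⟩]
  · rintro (i | i)
    · exact i.elim0
    · fin_cases i
      exacts [h3, h4]
  · rintro (i | i) (i' | i') e
    exacts [i.elim0, i.elim0, i'.elim0, by
      fin_cases i <;> fin_cases i'
      exacts [absurd rfl e, h5, h6, absurd rfl e]]

theorem su_sub {T : Finset (Fin m)} {P : Finset (Fin m × Fin m)} (h : P ∈ mat T) : su P ⊆ T :=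
  fun k hk => by
  obtain ⟨e, he, rfl | rfl⟩ := mem_su.1 hk
  exacts [((mem_mat.1 h).1 e he).1.1, ((mem_mat.1 h).1 e he).1.2]

theorem prod_su {T : Finset (Fin m)} {P : Finset (Fin m × Fin m)} (h : P ∈ mat T) (f : Fin m → ℝ) :
    ∏ k ∈ T, f k = (∏ k ∈ T \ su P, f k) * ∏ e ∈ P, f e.1 * f e.2 := by
  rw [← prod_sdiff (su_sub h), su, prod_biUnion fun e he e' he' => (mem_mat.1 h).2 e he e' he',
    prod_congr rfl fun e he => prod_pair ((mem_mat.1 h).1 e he).2.ne]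

theorem crude {E' : Fam} (ho : IsOpen D) (hK : K ⊆ D) (hc : IsCompact K) (h : Maj D E)
    (h' : Maj Set.univ E') (n : ℕ) (T : Finset (Fin m)) : ∃ C, ∀ᶠ a in 𝓝[>] (0 : ℝ),
      ∀ (j : Fin m → Fin 2) (w : Fin n ⊕ Fin m → ℂ) (t u : Fin n ⊕ Fin m → ℝ), (∀ i, w i ∈ K) →
        Adm (ST n T) w t u → |wk a (E a) (E' a) (pw j w) T| *
          ((∏ i, t (.inl i) ^ (1 / 8 : ℝ)) * ∏ k ∈ T, t (.inr k)) ≤ C := by
  obtain ⟨s, s0, hI⟩ := exists_ins ho hK hc
  obtain ⟨R, R0, hR⟩ := hc.isBounded.exists_pos_norm_le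
  obtain ⟨B, B0, hB⟩ := pr_bd h' R0
  choose C hC using fun T : Finset (Fin m) => h n T.card s s0
  refine ⟨∑ P ∈ mat T, B ^ P.card * C (T \ su P), ?_⟩
  filter_upwards [hB, eventually_all.2 hC] with a hB hC j w t u hw ht
  have t0 := fun i => (ht.t1 i).1
  rw [wk_eq, Ex_eq]
  refine (mul_le_mul_of_nonneg_right (abs_sum_le_sum_abs _ _) (mul_nonneg (prod_nonneg fun i _ =>
    Real.rpow_nonneg (t0 _).le _) (prod_nonneg fun i _ => (t0 _).le))).trans ?_
  rw [sum_mul]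
  refine sum_le_sum fun P hP => ?_
  have m1 : ∀ i, em n (T \ su P) i ∈ ST n T := fun i =>
    disjSum_mono Subset.rfl sdiff_subset (em_mem _ i)
  have k1 := hC (T \ su P) (pw (j ∘ (T \ su P).orderEmbOfFin rfl) (w ∘ em n (T \ su P))) rfl rfl
    (hI _ (by rw [elim_sP]; exact fun i => hw _)) (t ∘ em n (T \ su P)) (fun i => ht.t1 _) (by
      rw [elim_sP]
      exact fun i i' e => ht.t2 _ (m1 i) _ (m1 i') ((em_inj _).ne e))
  have k2 : ∏ e ∈ P, |corr a (E' a) (pr j w e)| * (t (.inr e.1) * t (.inr e.2)) ≤ B ^ P.card := by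
    rw [← prod_const]
    refine prod_le_prod (fun e _ => mul_nonneg (abs_nonneg _) (mul_pos (t0 _) (t0 _)).le)
      fun e he => ?_
    obtain ⟨⟨e1, e2⟩, e3⟩ := (mem_mat.1 hP).1 e he
    have e4 : (Sum.inr e.1 : Fin n ⊕ Fin m) ≠ .inr e.2 := fun h => e3.ne (Sum.inr_injective h)
    exact hB _ _ _ _ _ _ (hR _ (hw _)) (hR _ (hw _)) (ht.t1 _) (ht.t1 _)
      (ht.t2 _ (inr_mem_disjSum.2 e1) _ (inr_mem_disjSum.2 e2) e4)
      (ht.t2 _ (inr_mem_disjSum.2 e2) _ (inr_mem_disjSum.2 e1) e4.symm)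
  have k3 : |corr a (E a) (sub (pw j w) (T \ su P))| * (∏ i, t (.inl i) ^ (1 / 8 : ℝ)) *
      ∏ k ∈ T \ su P, t (.inr k) ≤ C (T \ su P) := by
    rw [← prod_em (T \ su P)]
    exact k1
  refine le_trans (le_of_eq ?_) (mul_le_mul k2 k3 (mul_nonneg (mul_nonneg (abs_nonneg _)
    (prod_nonneg fun i _ => Real.rpow_nonneg (t0 _).le _)) (prod_nonneg fun i _ => (t0 _).le))
    (pow_nonneg B0 _))
  rw [prod_su hP fun k => t (.inr k), prod_mul_distrib (f := fun e => |corr a (E' a) (pr j w e)|), abs_mul, abs_prod]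
  simp only [abs_neg]
  exact (fun x y z u v : ℝ => (by ring : x * y * (z * (u * v)) = x * v * (y * z * u))) _ _ _ _ _

theorem wk_congr (E E' : (Config → ℝ) → ℝ) (j : Fin m → Fin 2) {T : Finset (Fin m)}
    {w w' : Fin n ⊕ Fin m → ℂ} (h : ∀ i ∈ ST n T, w' i = w i) :
    wk a E E' (pw j w') T = wk a E E' (pw j w) T := by
  rw [wk_eq, wk_eq, Ex_eq, Ex_eq]
  refine sum_congr rfl fun P hP => congrArg₂ _ (prod_congr rfl fun e he => ?_) ?_
  · obtain ⟨⟨e1, e2⟩, -⟩ := (mem_mat.1 hP).1 e he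
    unfold pr
    rw [h _ (inr_mem_disjSum.2 e1), h _ (inr_mem_disjSum.2 e2)]
  · rw [sub_pw, sub_pw, show w' ∘ em n (T \ su P) = w ∘ em n (T \ su P) from funext fun i =>
      h _ (disjSum_mono Subset.rfl sdiff_subset (em_mem _ i))]

theorem wk_dom {E' : Fam} (ho : IsOpen D) (hK : K ⊆ D) (hc : IsCompact K) (h : Maj D E)
    (h' : Maj Set.univ E') (hW : MajW D E E') {R : ℝ} (hR : 0 < R) (n : ℕ) (T : Finset (Fin m)) :
    ∃ H, Fn R (ST n T) H ∧ ∀ᶠ a in 𝓝[>] (0 : ℝ), ∀ (j : Fin m → Fin 2) (w w' : Fin n ⊕ Fin m → ℂ),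
      Function.Injective w → (∀ i ∈ ST n T, w' i = w i) → (∀ i, w' i ∈ K) →
        |wk a (E a) (E' a) (pw j w) T| ≤ H w := by
  obtain ⟨s, s0, hI⟩ := exists_ins ho hK hc
  obtain ⟨C, hC⟩ := crude ho hK hc h h' n T
  obtain ⟨B, N, hB⟩ := hW n m s s0
  obtain ⟨η, η0, η1, η2⟩ : ∃ η : ℝ, 0 < η ∧ (Fintype.card (Fin n ⊕ Fin m) + 1) * η ≤ 1 ∧
      (N + 1) * η ≤ 1 / 4 := by
    refine ⟨1 / (4 * (Fintype.card (Fin n ⊕ Fin m) + N + 1)), by positivity, ?_, ?_⟩ <;>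
      rw [mul_one_div, div_le_iff₀ (by positivity)] <;>
      linarith [(Nat.cast_nonneg N : (0 : ℝ) ≤ _),
        (Nat.cast_nonneg (Fintype.card (Fin n ⊕ Fin m)) : (0 : ℝ) ≤ _)]
  have η3 : 0 ≤ N * η := by positivity
  obtain ⟨H, h1, h2⟩ := maj2 η0 η1 hR (ST n T)
  refine ⟨fun w => (|C| + |B|) * H w, h1.cmul (by positivity), ?_⟩
  filter_upwards [hC, hB] with a hC hB j w w' hw e hw'
  obtain ⟨t, u, ht, h3⟩ := h2 w hw
  have ht : Adm (ST n T) w' t u := ⟨ht.t1, ht.u1, fun p hp q hq => by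
    rw [e p hp, e q hq]
    exact ht.t2 p hp q hq, fun p hp q hq r hr => by
    rw [e p hp, e q hq, e r hr]
    exact ht.u2 p hp q hq r hr⟩
  have t0 := fun i => (ht.t1 i).1
  have ml := fun i => (inl_mem_disjSum.2 (mem_univ i) : Sum.inl i ∈ ST n T)
  have ρ1 : ∀ i, ∏ i, t (.inl i) ≤ t (.inl i) := fun i => by
    rw [← mul_prod_erase _ _ (mem_univ i)]
    exact mul_le_of_le_one_right (t0 _).le (prod_le_one (fun _ _ => (t0 _).le) fun _ _ => (ht.t1 _).2)
  have k1 := hC j w' t u hw' ht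
  have k2 := hB (pw j w') rfl rfl (hI _ (by rwa [elim_sP])) T (∏ i, t (.inl i))
    (fun k => t (.inr k)) (fun k => max (t (.inr k)) (u (.inr k))) (prod_pos fun _ _ => t0 _)
    (prod_le_one (fun _ _ => (t0 _).le) fun _ _ => (ht.t1 _).2)
    (fun i i' h => (ρ1 i).trans (ht.t2 _ (ml i) _ (ml i') (Sum.inl_injective.ne h)))
    (fun i k hk => (ρ1 i).trans (ht.t2 _ (ml i) _ (inr_mem_disjSum.2 hk) Sum.inl_ne_inr))
    (fun k => ⟨t0 _, le_max_left _ _, max_le (ht.t1 _).2 (ht.u1 _).2⟩)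
    (fun k hk l hl h => ht.t2 _ (inr_mem_disjSum.2 hk) _ (inr_mem_disjSum.2 hl)
      (Sum.inr_injective.ne h))
    fun k hk l hl l' hl' a1 a2 a3 => max_le (le_max_of_le_left (ht.t2 _ (inr_mem_disjSum.2 hk) _
      (inr_mem_disjSum.2 hl) (Sum.inr_injective.ne a1))) (ht.u2 _ (inr_mem_disjSum.2 hk) _
      (inr_mem_disjSum.2 hl) _ (inr_mem_disjSum.2 hl') (Sum.inr_injective.ne a1)
      (Sum.inr_injective.ne a2) (Sum.inr_injective.ne a3))
  rw [wk_congr _ _ j e] at k1 k2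
  set X := |wk a (E a) (E' a) (pw j w) T| with hX
  have X0 : 0 ≤ X := abs_nonneg _
  set f : Fin n ⊕ Fin m → ℝ := Sum.elim (fun i => t (.inl i) ^ (1 / 8 : ℝ)) fun k => t (.inr k)
  set g : Fin n ⊕ Fin m → ℝ := Sum.elim (fun i => t (.inl i) ^ N)
    fun k => √(t (.inr k) * max (t (.inr k)) (u (.inr k)))
  have f0 : ∀ i, 0 ≤ f i := by
    rintro (i | i)
    exacts [Real.rpow_nonneg (t0 _).le _, (t0 _).le]
  have g0 : ∀ i, 0 ≤ g i := by
    rintro (i | i)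
    exacts [pow_nonneg (t0 _).le _, Real.sqrt_nonneg _]
  have k3 : X * ∏ i ∈ ST n T, f i ≤ |C| := by
    rw [prod_disjSum]
    exact k1.trans (le_abs_self C)
  have k4 : X * ∏ i ∈ ST n T, g i ≤ |B| := by
    rw [prod_disjSum, ← mul_assoc]
    refine le_trans (le_of_eq ?_) (k2.trans (le_abs_self B))
    rw [← prod_pow]
    rfl
  have F0 := prod_nonneg (s := ST n T) fun i _ => f0 i
  have G0 := prod_nonneg (s := ST n T) fun i _ => g0 i
  have k5 : ∏ p ∈ ST n T, t p ^ (1 - η) * u p ^ η ≤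
      (∏ i ∈ ST n T, f i) + ∏ i ∈ ST n T, g i := by
    refine le_trans ?_ ((Real.geom_mean_le_arith_mean2_weighted (w₁ := 1 - 2 * η) (w₂ := 2 * η)
      (by linarith) (by linarith) F0 G0 (by ring)).trans (add_le_add
        (mul_le_of_le_one_left F0 (by linarith)) (mul_le_of_le_one_left G0 (by linarith))))
    rw [← Real.finsetProd_rpow _ _ fun i _ => f0 i, ← Real.finsetProd_rpow _ _ fun i _ => g0 i,
      ← prod_mul_distrib]
    refine prod_le_prod (fun p _ => mul_nonneg (Real.rpow_nonneg (t0 _).le _)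
      (Real.rpow_nonneg (ht.u1 _).1.le _)) ?_
    rintro (i | k) -
    · refine (mul_le_of_le_one_right (Real.rpow_nonneg (t0 _).le _)
        (Real.rpow_le_one (ht.u1 _).1.le (ht.u1 _).2 η0.le)).trans ?_
      show _ ≤ (t (.inl i) ^ (1 / 8 : ℝ)) ^ (1 - 2 * η) * (t (.inl i) ^ N) ^ (2 * η)
      rw [← Real.rpow_mul (t0 _).le, ← Real.rpow_natCast_mul (t0 _).le, ← Real.rpow_add (t0 _)]
      exact Real.rpow_le_rpow_of_exponent_ge (t0 _) (ht.t1 _).2 (by linarith)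
    · show _ ≤ t (.inr k) ^ (1 - 2 * η) * √(t (.inr k) * max (t (.inr k)) (u (.inr k))) ^ (2 * η)
      have m0 : 0 ≤ max (t (.inr k)) (u (.inr k)) := le_max_of_le_left (t0 _).le
      rw [Real.sqrt_eq_rpow, ← Real.rpow_mul (mul_nonneg (t0 _).le m0),
        show 1 / 2 * (2 * η) = η by ring, Real.mul_rpow (t0 _).le m0, ← mul_assoc,
        ← Real.rpow_add (t0 _), show 1 - 2 * η + η = 1 - η by ring]
      exact mul_le_mul_of_nonneg_left (Real.rpow_le_rpow (ht.u1 _).1.le (le_max_right _ _) η0.le)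
        (Real.rpow_nonneg (t0 _).le _)
  have k6 := mul_le_mul_of_nonneg_left (h3.trans (mul_le_mul_of_nonneg_left k5 (h1.pos w))) X0
  have k7 := mul_le_mul_of_nonneg_right (add_le_add k3 k4) (h1.pos w)
  linarith

theorem lim_pr {E' : Fam} {C₀ : Pts → ℝ}
    (h : ∀ p, Good Set.univ p → Lim E' p (C₀ p) ∧ ∀ j, C₀ { p with j := j } = C₀ p)
    (j : Fin m → Fin 2) {w : Fin n ⊕ Fin m → ℂ} (hw : Function.Injective w) {e : Fin m × Fin m}
    (he : e.1 ≠ e.2) : Lim E' (pr j w e) (C₀ (pr 0 w e)) := by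
  have g : Good Set.univ (pr j w e) := by
    refine ⟨two_pos, fun _ => trivial, fun _ => trivial, ?_⟩
    have := (hw.comp Sum.inr_injective).ne he
    rintro (i | i) (i' | i') h
    exacts [i.elim0, i.elim0, i'.elim0, by
      fin_cases i <;> fin_cases i'
      exacts [rfl, absurd h this, absurd h.symm this, rfl]]
  exact (h _ g).2 ![0, 0] ▸ (h _ g).1

theorem lim_pw {C : Pts → ℝ} (hP : Prob E) (h1 : ∀ p : Pts, p.n + p.m = 0 → C p = 1)
    (h : ∀ p, Good D p → Lim E p (C p) ∧ ∀ j, C { p with j := j } = C p) (j j' : Fin m → Fin 2)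
    {w : Fin n ⊕ Fin m → ℂ} (hw : Function.Injective w) (hD : ∀ i, w i ∈ D) :
    Lim E (pw j w) (C (pw j' w)) := by
  obtain ⟨μ, _, hμ⟩ := hP
  rcases Nat.eq_zero_or_pos (n + m) with e | e
  · rw [h1 _ e]
    obtain ⟨rfl, rfl⟩ := Nat.add_eq_zero_iff.1 e
    refine tendsto_const_nhds.congr' (eventually_mem_nhdsWithin.mono fun a ha => ?_)
    have e1 : IsEmpty (Fin (pts j (sP 0 0 w)).n) := inferInstanceAs (IsEmpty (Fin 0))
    have e2 : IsEmpty (Fin (pts j (sP 0 0 w)).m) := inferInstanceAs (IsEmpty (Fin 0))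
    beta_reduce
    rw [corr, hμ a ha]
    simp only [univ_eq_empty, prod_empty, mul_one, integral_const, probReal_univ, one_smul]
  · have g : Good D (pw j w) := ⟨e, fun i => hD (.inl i), fun k => hD (.inr k), by rwa [elim_sP]⟩
    exact (h _ g).2 j' ▸ (h _ g).1

theorem lim_wk {E' : Fam} {C C₀ : Pts → ℝ}
    (h₀ : ∀ p, Good Set.univ p → Lim E' p (C₀ p) ∧ ∀ j, C₀ { p with j := j } = C₀ p)
    (hP : Prob E) (h1 : ∀ p : Pts, p.n + p.m = 0 → C p = 1)
    (h : ∀ p, Good D p → Lim E p (C p) ∧ ∀ j, C { p with j := j } = C p) (j : Fin m → Fin 2)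
    {w : Fin n ⊕ Fin m → ℂ} (hw : Function.Injective w) {T : Finset (Fin m)}
    (hD : ∀ i ∈ ST n T, w i ∈ D) : Tendsto (fun a => wk a (E a) (E' a) (pw j w) T) (𝓝[>] 0)
      (𝓝 (Ex (fun e => C₀ (pr 0 w e)) (fun T => C (sub (pw 0 w) T)) T)) :=
  tendsto_finsetSum _ fun _ hP' => (tendsto_finsetProd _ fun e he =>
    (lim_pr h₀ j hw ((mem_mat.1 hP').1 e he).2.ne).neg).mul (lim_pw hP h1 h _ _
      (hw.comp (em_inj _)) fun i => hD _ (disjSum_mono Subset.rfl sdiff_subset (em_mem _ i)))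

end Vale.Agent.P144DI
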